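import Vale.Agent.P232.SlabHigh.Sound
import Vale.Agent.P232.KinkBT

/-! # P232: the corner next to the tube -/

namespace Vale.Agent.P232.SlabHigh

open MeasureTheory Set intervalIntegral

lemma left_half {r : ℝ} (hr : 0 < r) (hr1 : r ≤ 0.376) :
    1.4 * r ^ 2 ≤ ∫ x in -r..0, √((r ^ 2 - x ^ 2) * ((2 + x) ^ 2 - r ^ 2)) := by
  have hneg := intervalIntegral.integral_comp_neg (a := (0:ℝ)) (b := r)
    (fun x : ℝ => √((r ^ 2 - x ^ 2) * ((2 + x) ^ 2 - r ^ 2)))
  simp only [neg_sq, neg_zero] at hneg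
  rw [← hneg]
  have hpt : ∀ y ∈ Icc (0:ℝ) r, √(r ^ 2 - y ^ 2) * (1.96 - 1.1 * y) ≤
      √((r ^ 2 - y ^ 2) * ((2 + -y) ^ 2 - r ^ 2)) := by
    intro y hy
    rw [Real.sqrt_mul (by nlinarith [hy.1, hy.2])]
    refine mul_le_mul_of_nonneg_left (Real.le_sqrt_of_sq_le ?_) (Real.sqrt_nonneg _)
    nlinarith [mul_nonneg hy.1 (sub_nonneg.2 hy.2), hy.1, hy.2, mul_nonneg hy.1 hy.1]
  refine le_trans ?_ (intervalIntegral.integral_mono_on hr.le
    (Continuous.intervalIntegrable (by fun_prop) _ _)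
    (Continuous.intervalIntegrable (by fun_prop) _ _) hpt)
  have hm : (∫ y in (0:ℝ)..r, y * √(r ^ 2 - y ^ 2)) = r ^ 3 / 3 := by
    have key := intervalIntegral.integral_eq_sub_of_hasDerivAt_of_le (a := (0:ℝ)) (b := r)
      (f := fun y => -((r ^ 2 - y ^ 2) * √(r ^ 2 - y ^ 2)) / 3)
      (f' := fun y => y * √(r ^ 2 - y ^ 2)) hr.le (by fun_prop) ?_
      (Continuous.intervalIntegrable (by fun_prop) _ _)
    · rw [key]
      simp [Real.sqrt_sq hr.le]
      ring
    · intro y hy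
      have hpos : 0 < r ^ 2 - y ^ 2 := by nlinarith [hy.1, hy.2]
      have hd : HasDerivAt (fun y : ℝ => r ^ 2 - y ^ 2) (-(2 * y)) y := by
        simpa using ((hasDerivAt_pow 2 y).const_sub (r ^ 2))
      refine ((hd.mul (hd.sqrt hpos.ne')).neg.div_const 3).congr_deriv ?_
      field_simp
      rw [Real.sq_sqrt hpos.le]
      ring
  have e : ∀ y, √(r ^ 2 - y ^ 2) * (1.96 - 1.1 * y) =
      1.96 * √(r ^ 2 - y ^ 2) - 1.1 * (y * √(r ^ 2 - y ^ 2)) := fun y => by ring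
  simp only [e]
  rw [intervalIntegral.integral_sub (Continuous.intervalIntegrable (by fun_prop) _ _)
    (Continuous.intervalIntegrable (by fun_prop) _ _), intervalIntegral.integral_const_mul,
    intervalIntegral.integral_const_mul, hm, half_disc hr]
  nlinarith [mul_le_mul_of_nonneg_right hr1 (sq_nonneg r),
    mul_le_mul_of_nonneg_right Real.pi_gt_d6.le (sq_nonneg r)]

lemma right_part {r : ℝ} (hr : 0 < r) (hr1 : r ≤ 0.376) :
    0.32 * r ^ 2 ≤ ∫ x in (0:ℝ)..r / 6, √((r ^ 2 - x ^ 2) * ((2 + x) ^ 2 - r ^ 2)) := by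
  have hpt : ∀ x ∈ Icc (0:ℝ) (r / 6), 0.985 * r * 1.96 ≤
      √((r ^ 2 - x ^ 2) * ((2 + x) ^ 2 - r ^ 2)) := by
    intro x hx
    refine Real.le_sqrt_of_sq_le ?_
    rw [mul_pow]
    refine mul_le_mul ?_ ?_ (by norm_num) (by nlinarith [hx.1, hx.2]) <;> nlinarith [hx.1, hx.2]
  refine le_trans ?_ (intervalIntegral.integral_mono_on (by linarith) intervalIntegrable_const
    (Continuous.intervalIntegrable (by fun_prop) _ _) hpt)
  rw [intervalIntegral.integral_const, smul_eq_mul]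
  nlinarith [sq_nonneg r]

lemma r2_bound {h ε : ℝ} (hl : 1.5 ≤ h) (hh : h ≤ Real.pi / 2) (hε0 : 0 ≤ ε)
    (hε : ε ≤ 0.55 - h / Real.pi) :
    (1 - 2 * h / Real.pi) ^ 2 + 4 * h * ε / Real.pi ≤ 0.376 ^ 2 := by
  have hp := Real.pi_pos
  have hp0 := Real.pi_gt_d6
  have hp1 := Real.pi_lt_d6
  set u := h / Real.pi with hu
  have u0 : 0.47746 ≤ u := by rw [hu, le_div_iff₀ hp]; linarith
  have u1 : u ≤ 1 / 2 := by rw [hu, div_le_iff₀ hp]; linarith
  have e : (1 - 2 * h / Real.pi) ^ 2 + 4 * h * ε / Real.pi = (1 - 2 * u) ^ 2 + 4 * u * ε := by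
    rw [hu]; ring
  rw [e]
  linarith [mul_le_mul_of_nonneg_left hε (show 0 ≤ 4 * u by linarith),
    show (1 - 2 * u) ^ 2 + 4 * u * (0.55 - u) = 1 - 1.8 * u by ring]

lemma ell_small {s : ℝ} (h0 : 0 ≤ s) (h1 : s ≤ 0.3943) :
    ellE 0.8943 0.7 0.071 s = √(Real.pi * s) := by
  refine min_eq_left ?_
  rcases le_or_gt (Real.pi * s) 1 with g | g
  · exact le_max_of_le_left (Real.sqrt_le_one.mpr g)
  · have hp1 := mul_le_mul_of_nonneg_right Real.pi_lt_d6.le h0
    have hs : 0.318 ≤ s := by linarith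
    refine le_max_of_le_right (Real.sqrt_le_iff.mpr ⟨by linarith, ?_⟩)
    nlinarith [mul_nonneg (sub_nonneg.mpr hs) (sub_nonneg.mpr h1)]

lemma corner_integral {h c r K : ℝ} (hh0 : 0 < h) (hr : 0 < r) (hr1 : r ≤ 0.376)
    (hx : c = Real.pi * (1 - r ^ 2) / (4 * h)) (hK : K = Real.pi / (4 * h ^ 2))
    (hMb : K * (1 + r / 6) ^ 2 ≤ 0.3943) :
    (∫ s in K * (1 - r) ^ 2..K * (1 + r / 6) ^ 2, bfun (h * s + c) (ellE 0.8943 0.7 0.071 s)) =
      K * ∫ x in -r..r / 6, √((r ^ 2 - x ^ 2) * ((2 + x) ^ 2 - r ^ 2)) := by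
  have hp := Real.pi_pos
  have hKpos : 0 < K := by rw [hK]; positivity
  set M := K * (1 + r / 6) ^ 2 with hM
  have hmain := intervalIntegral.integral_comp_mul_deriv_of_deriv_nonneg (a := -r) (b := r / 6)
    (f := fun x => K * (1 + x) ^ 2) (f' := fun x => K * (2 * (1 + x)))
    (g := fun s => bfun (h * s + c) (ellE 0.8943 0.7 0.071 s)) (by fun_prop) (fun x _ => by
      simpa using (((hasDerivAt_id x).const_add 1).pow 2).const_mul K)
    (fun x hx => by
      rw [min_eq_left (by linarith)] at hx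
      have : 0 ≤ 1 + x := by linarith [hx.1]
      positivity)
  rw [show (1:ℝ) + -r = 1 - r by ring] at hmain
  have hval : (∫ x in -r..r / 6, ((fun s => bfun (h * s + c) (ellE 0.8943 0.7 0.071 s)) ∘
      fun x => K * (1 + x) ^ 2) x * (K * (2 * (1 + x)))) =
      K * ∫ x in -r..r / 6, √((r ^ 2 - x ^ 2) * ((2 + x) ^ 2 - r ^ 2)) := by
    rw [← intervalIntegral.integral_const_mul]
    apply intervalIntegral.integral_congr_ae
    filter_upwards [] with x hx'
    rw [uIoc_of_le (by linarith)] at hx'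
    have hx1 : 0 < 1 + x := by linarith [hx'.1]
    have hlt : x < r := by linarith [hx'.2]
    have hs1 : K * (1 + x) ^ 2 ≤ M :=
      mul_le_mul_of_nonneg_left (pow_le_pow_left₀ hx1.le (by linarith [hx'.2]) 2) hKpos.le
    have hq : 0 < (r ^ 2 - x ^ 2) * ((2 + x) ^ 2 - r ^ 2) :=
      mul_pos (by nlinarith [hx'.1]) (by nlinarith [hx'.1])
    have hl' : √(Real.pi * (K * (1 + x) ^ 2)) = Real.pi / (2 * h) * (1 + x) := by
      rw [show Real.pi * (K * (1 + x) ^ 2) = (Real.pi / (2 * h) * (1 + x)) ^ 2 by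
        subst hK; field_simp; ring, Real.sqrt_sq (by positivity)]
    have hF : h * (K * (1 + x) ^ 2) + c =
        Real.pi / (2 * h) * ((1 + x) ^ 2 / 2 + (1 - r ^ 2) / 2) := by
      subst hK; rw [hx]; field_simp; ring
    have hlt2 : (1 + x) ^ 2 / 2 + (1 - r ^ 2) / 2 < 1 + x := by nlinarith [hx'.1]
    simp only [Function.comp, ell_small (by positivity : 0 ≤ K * (1 + x) ^ 2) (hs1.trans hMb), hl', hF]
    rw [bfun, if_pos (mul_lt_mul_of_pos_left hlt2 (by positivity)),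
      mul_div_mul_left _ _ (by positivity : Real.pi / (2 * h) ≠ 0)]
    have : √(1 - (((1 + x) ^ 2 / 2 + (1 - r ^ 2) / 2) / (1 + x)) ^ 2) * (2 * (1 + x)) =
        √((r ^ 2 - x ^ 2) * ((2 + x) ^ 2 - r ^ 2)) := by
      rw [← Real.sqrt_sq (by positivity : (0:ℝ) ≤ 2 * (1 + x))]
      rw [← Real.sqrt_mul' _ (sq_nonneg _)]
      congr 1
      field_simp
      ring
    rw [← this]
    ring
  rw [← hmain, hval]

lemma root_in {h c r K s : ℝ} (hh0 : 0 < h) (hc0 : 0 ≤ c) (hr : 0 < r) (hK0 : 0 < K)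
    (hx : c = Real.pi * (1 - r ^ 2) / (4 * h)) (hK : K = Real.pi / (4 * h ^ 2))
    (hms : K * (1 - r) ^ 2 < s) (hsM : s ≤ K * (1 + r / 6) ^ 2) :
    h * s + c < √(Real.pi * s) := by
  have hs0 : 0 ≤ s := le_trans (mul_nonneg hK0.le (sq_nonneg _)) hms.le
  rw [Real.lt_sqrt (add_nonneg (mul_nonneg hh0.le hs0) hc0)]
  have hfac : (h * s + c) ^ 2 - Real.pi * s =
      h ^ 2 * ((s - K * (1 - r) ^ 2) * (s - K * (1 + r) ^ 2)) := by
    subst hx hK; field_simp; ring
  have : s < K * (1 + r) ^ 2 := hsM.trans_lt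
    (mul_lt_mul_of_pos_left (pow_lt_pow_left₀ (by linarith) (by linarith) two_ne_zero) hK0)
  linarith [mul_neg_of_pos_of_neg (pow_pos hh0 2)
    (mul_neg_of_pos_of_neg (sub_pos.2 hms) (sub_neg.2 this))]

lemma root_lt {h c r K : ℝ} (hh0 : 0 < h) (hc0 : 0 ≤ c) (hr : 0 < r) (hK0 : 0 < K)
    (hx : c = Real.pi * (1 - r ^ 2) / (4 * h)) (hK : K = Real.pi / (4 * h ^ 2))
    (hKv : 1 / Real.pi ≤ K) (hlt : h / Real.pi + c < 1) :
    K * (1 - r) ^ 2 < 1 / Real.pi := by
  have hp := Real.pi_pos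
  have hfac : (h * (1 / Real.pi) + c) ^ 2 - Real.pi * (1 / Real.pi) =
      h ^ 2 * ((1 / Real.pi - K * (1 - r) ^ 2) * (1 / Real.pi - K * (1 + r) ^ 2)) := by
    subst hx hK; field_simp; ring
  have hlt2 : (h * (1 / Real.pi) + c) ^ 2 < 1 := by
    rw [mul_one_div]
    exact pow_lt_one₀ (by linarith [div_nonneg hh0.le hp.le]) hlt two_ne_zero
  rw [mul_one_div_cancel hp.ne'] at hfac
  by_contra hcon
  rw [not_lt] at hcon
  have h2 : K ≤ K * (1 + r) ^ 2 := le_mul_of_one_le_right hK0.le (one_le_pow₀ (by linarith))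
  linarith [mul_nonneg (sq_nonneg h) (mul_nonneg_of_nonpos_of_nonpos
    (show 1 / Real.pi - K * (1 - r) ^ 2 ≤ 0 by linarith)
    (show 1 / Real.pi - K * (1 + r) ^ 2 ≤ 0 by linarith))]

/-- The contradiction at the corner, from the axis of the large coefficient. -/
theorem corner {h c a1 a0 : ℝ} (hl : 1.5 ≤ h) (hh : h ≤ Real.pi / 2) (hc : 0.45 ≤ c)
    (hlt : h / Real.pi + c < 1) (ha1 : 0 ≤ a1) (ha1' : a1 ≤ 1 / Real.pi) (ha0 : 1 / Real.pi ≤ a0)
    (he1 : ellE 0.8943 0.7 0.071 a1 ≤ h * a1 + c) (he0 : ellE 0.8943 0.7 0.071 a0 ≤ h * a0 + c)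
    (hI : (∫ s in a1..a0, bfun (h * s + c) (ellE 0.8943 0.7 0.071 s)) ≤ 1 - h / Real.pi - c) :
    False := by
  have hp := Real.pi_pos
  have hp0 := Real.pi_gt_d6
  have hp1 := Real.pi_lt_d6
  have hh0 : 0 < h := by linarith
  have hc0 : 0 ≤ c := by linarith
  set ε := 1 - h / Real.pi - c with hεdef
  have hε : 0 < ε := by linarith
  set r2 := (1 - 2 * h / Real.pi) ^ 2 + 4 * h * ε / Real.pi with hr2def
  have hr2pos : 0 < r2 := by
    have h1 : 0 < 4 * h * ε / Real.pi := by positivity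
    linarith [sq_nonneg (1 - 2 * h / Real.pi)]
  set r := √r2 with hrdef
  have hr : 0 < r := Real.sqrt_pos.mpr hr2pos
  have hr2 : r ^ 2 = r2 := Real.sq_sqrt hr2pos.le
  have hrc : r ^ 2 = 1 - 4 * h * c / Real.pi := by
    rw [hr2, hr2def, hεdef]; field_simp; ring
  have hr1 : r ≤ 0.376 :=
    Real.sqrt_le_iff.2 ⟨by norm_num, r2_bound hl hh hε.le (by rw [hεdef]; linarith)⟩
  set K := Real.pi / (4 * h ^ 2) with hK
  have hKpos : 0 < K := by positivity
  set m := K * (1 - r) ^ 2 with hm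
  set M := K * (1 + r / 6) ^ 2 with hM
  have hx : c = Real.pi * (1 - r ^ 2) / (4 * h) := by rw [hrc]; field_simp; ring
  have hK1 : K ≤ 0.34907 := by
    rw [hK, div_le_iff₀ (by positivity)]
    linarith [mul_le_mul hl hl (by norm_num) hh0.le, sq h]
  have hK0 : 1 / Real.pi ≤ K := by
    rw [hK, div_le_div_iff₀ hp (by positivity)]
    linarith [mul_le_mul hh hh hh0.le (by linarith), sq h]
  have hMb : M ≤ 0.3943 := by
    have : (1 + r / 6) ^ 2 ≤ 1.1293 := by linarith [mul_le_mul hr1 hr1 hr.le (by norm_num), sq r]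
    have := mul_le_mul hK1 this (sq_nonneg _) (by norm_num)
    linarith
  have hell := @ell_small
  have hin := fun s => root_in (s := s) hh0 hc0 hr hKpos hx hK
  have hvM : 1 / Real.pi ≤ M := hK0.trans
    (le_mul_of_one_le_right hKpos.le (one_le_pow₀ (by linarith)))
  have hmM : m ≤ M :=
    mul_le_mul_of_nonneg_left (pow_le_pow_left₀ (by linarith) (by linarith) 2) hKpos.le
  have hA1 : a1 ≤ m := by
    by_contra hcon
    have hM1 : a1 ≤ M := ha1'.trans hvM
    rw [hell ha1 (hM1.trans hMb)] at he1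
    exact absurd (hin a1 (not_le.1 hcon) hM1) (not_lt.2 he1)
  have hmv : m < 1 / Real.pi := root_lt hh0 hc0 hr hKpos hx hK hK0 hlt
  have hA0 : M ≤ a0 := by
    by_contra hcon
    rw [hell (le_trans (by positivity) ha0) ((not_le.1 hcon).le.trans hMb)] at he0
    exact absurd (hin a0 (hmv.trans_le ha0) (not_le.1 hcon).le) (not_lt.2 he0)
  have hint := integral_mono_interval (μ := volume) hA1 hmM hA0
    (f := fun s => bfun (h * s + c) (ellE 0.8943 0.7 0.071 s))
    (Filter.Eventually.of_forall fun _ => bfun_nonneg _ _)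
    (intervalIntegrable_bfun (by fun_prop) (continuous_ellE _ _ _).measurable _ _)
  have hCI := corner_integral hh0 hr hr1 hx hK hMb
  have hlow : 1.72 * r ^ 2 ≤ ∫ x in -r..r / 6, √((r ^ 2 - x ^ 2) * ((2 + x) ^ 2 - r ^ 2)) := by
    rw [← integral_add_adjacent_intervals (b := 0)
      (Continuous.intervalIntegrable (by fun_prop) _ _)
      (Continuous.intervalIntegrable (by fun_prop) _ _)]
    linarith [left_half hr hr1, right_part hr hr1]
  have hre : 4 * h * ε / Real.pi ≤ r ^ 2 := by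
    rw [hr2, hr2def]; linarith [sq_nonneg (1 - 2 * h / Real.pi)]
  have hfin : K * (1.72 * (4 * h * ε / Real.pi)) ≤ ε := by
    have g1 := mul_le_mul_of_nonneg_left (le_trans (mul_le_mul_of_nonneg_left hre
      (by norm_num : (0:ℝ) ≤ 1.72)) hlow) hKpos.le
    rw [← hCI] at g1
    linarith
  have e : K * (1.72 * (4 * h * ε / Real.pi)) = 1.72 * ε / h := by rw [hK]; field_simp
  rw [e, div_le_iff₀ hh0] at hfin
  linarith [mul_le_mul_of_nonneg_left (show h ≤ 1.5708 by linarith) hε.le]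

end Vale.Agent.P232.SlabHigh
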