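import Vale.Agent.P232.SlabHigh.ThinCalib
import Vale.Agent.P232.SlabHigh.ThinData

/-! # P232: a thin trace is impossible at the slab kink -/

namespace Vale.Agent.P232.SlabHigh

open MeasureTheory Set

/-- Proof of `ThinCase`. -/
theorem thinCase : ThinCase := by
  intro ha hb W hmem D h c hD hst hv h1 h2 hP _ i j k hij hik hjk hi hj hk hext hW
  have hband : ∃ cs, zBandOK W cs ha hb = true := by
    simp only [bands, List.mem_cons, List.not_mem_nil, or_false, Prod.mk.injEq] at hmem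
    rcases hmem with ⟨rfl, rfl, rfl⟩ | ⟨rfl, rfl, rfl⟩ | ⟨rfl, rfl, rfl⟩ | ⟨rfl, rfl, rfl⟩ |
      ⟨rfl, rfl, rfl⟩ | ⟨rfl, rfl, rfl⟩ | ⟨rfl, rfl, rfl⟩ | ⟨rfl, rfl, rfl⟩ | ⟨rfl, rfl, rfl⟩ |
      ⟨rfl, rfl, rfl⟩ | ⟨rfl, rfl, rfl⟩
    exacts [⟨_, thinBand0⟩, ⟨_, thinBand1⟩, ⟨_, thinBand2⟩, ⟨_, thinBand3⟩, ⟨_, thinBand4⟩,
      ⟨_, thinBand5⟩, ⟨_, thinBand6⟩, ⟨_, thinBand7⟩, ⟨_, thinBand8⟩, ⟨_, thinBand9⟩,
      ⟨_, thinBand10⟩]
  obtain ⟨cs, hcs⟩ := hband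
  obtain ⟨cell, hcell, g1, g2⟩ := band_sound cs ha hb hcs h h1 h2
  obtain ⟨hκ, sl, β, hsl0, -, hcap, hm, hb', hlev, hint⟩ := cell_sound hcell g1 g2
  obtain ⟨-, -, -, -, -, -, -, -, hva, -⟩ := sliceBasics D hD i
  have ha0 : 0 ≤ endA0 D i := le_trans measureReal_nonneg hva
  have hroot := end0_both sliceBasics faceBasics sliceGen hD hst hij hik hjk hj hk
  rw [hst.unspanned i hi, add_zero] at hroot
  have hsl : sl ≤ endA0 D i := hcap _ ha0 (Real.sqrt_le_iff.1 hroot).2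
  have hmain := thin_calib hD hst hij hik hjk hi hκ hsl0 hsl hm hb' hlev hext hW
  rw [hv, mul_one_div] at hmain
  linarith

end Vale.Agent.P232.SlabHigh
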