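import Vale.Agent.P232.SlabHigh.Trace
import Vale.Agent.P232.SlabHigh.Corner
import Vale.Agent.P232.SlabHigh.Thin
import Vale.Agent.P232.SlabHigh.Band0
import Vale.Agent.P232.SlabHigh.Band1
import Vale.Agent.P232.SlabHigh.Band2
import Vale.Agent.P232.SlabHigh.Band3
import Vale.Agent.P232.SlabHigh.Band4
import Vale.Agent.P232.SlabHigh.Band5
import Vale.Agent.P232.SlabHigh.Band6
import Vale.Agent.P232.SlabHigh.Band7
import Vale.Agent.P232.SlabHigh.Band8
import Vale.Agent.P232.SlabHigh.Band9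
import Vale.Agent.P232.SlabHigh.Band10
import Vale.Agent.P232.Calibration
import Vale.Agent.P232.EqCases

/-! # P232: two spanned axes at the slab kink, large slope -/

namespace Vale.Agent.P232.SlabHigh

open MeasureTheory Set Filter Topology

section

variable {D : Set V3} {h : ℝ} {c : Fin 3 → ℝ} {i j k : Fin 3}

/-- Both spanned coefficients leave room below one. -/
lemma coef_lt (hD : IsDown D) (hS : Stationary D h c) (hv : dvol D = 1 / Real.pi) (hh : 0 < h)
    (hA : area D ≤ 1) (hij : i ≠ j) (hik : i ≠ k) (hjk : j ≠ k) (hi : endA1 D i = 0)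
    (hj : 0 < endA1 D j) (hk : 0 < endA1 D k) : h / Real.pi + c j < 1 := by
  have hp := Real.pi_pos
  obtain ⟨-, -, -, -, -, -, -, -, hva, -⟩ := sliceBasics D hD j
  have hm := mainIneq D h c hD hS j ell3 continuous_ell3 (slice3 D hD j)
  have hI : 0 ≤ ∫ s in endA1 D j..endA0 D j, bfun (h * s + c j) (ell3 s) := by
    obtain ⟨-, -, -, -, -, -, -, h1v, -, -⟩ := sliceBasics D hD j
    exact intervalIntegral.integral_nonneg (h1v.trans hva) fun s _ => bfun_nonneg _ _
  rw [hv, mul_one_div] at hm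
  by_contra hcon
  rw [not_lt] at hcon
  have hP : area D = 1 := le_antisymm hA (by linarith)
  have hcyl : endA1 D j = 1 / Real.pi := by
    rw [← hv]
    refine cylinder_of_le sliceBasics quadIneq hD hS j (by rw [hP]; exact one_pos) ?_
    rw [hP, hv, mul_one_div]; exact hcon
  have hsum := hS.sum_eq
  obtain ⟨a, b, hab, had, hbd, hall, hs3⟩ := three_axes i
  have hs : ∑ l, c l = c j + c k := by
    rw [hs3 c, hS.unspanned i hi, zero_add]
    rcases hall j with e | e | e <;> rcases hall k with e' | e' | e' <;> subst e <;> subst e' <;>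
      first
      | exact absurd rfl hij
      | exact absurd rfl hik
      | exact absurd rfl hjk
      | ring
  rw [hs, hP, hv, mul_one_div] at hsum
  obtain ⟨hanti, hWm, hWb, hWint, hWle⟩ := faceBasics D hD k j i hjk.symm hik.symm hij.symm
  obtain ⟨-, hAm, hAb, -, -, hAint, -, hk1v, -, -⟩ := sliceBasics D hD k
  have hpos : ∀ t ∈ Ioo (0 : ℝ) 1, 0 < faceW D k j i t := by
    intro t0 ht0
    by_contra hc0
    have hz : ∀ t ∈ Ico t0 1, faceW D k j i t = 0 := fun t ht =>
      le_antisymm ((hanti ht0 ⟨ht0.1.trans_le ht.1, ht.2⟩ ht.1).trans (not_lt.1 hc0)) (hWb t).1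
    have hiW : ∀ a b : ℝ, IntervalIntegrable (faceW D k j i) volume a b := fun a b =>
      (intervalIntegrable_const (c := (1:ℝ))).mono_fun hWm.aestronglyMeasurable
        (Eventually.of_forall fun x => by simpa [abs_of_nonneg (hWb x).1] using (hWb x).2)
    have hiA : ∀ a b : ℝ, IntervalIntegrable (sliceA D k) volume a b := fun a b =>
      (intervalIntegrable_const (c := (1:ℝ))).mono_fun hAm.aestronglyMeasurable
        (Eventually.of_forall fun x => by simpa [abs_of_nonneg (hAb x).1] using (hAb x).2)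
    have g1 := intervalIntegral.integral_add_adjacent_intervals (hiW 0 t0) (hiW t0 1)
    have g2 := intervalIntegral.integral_add_adjacent_intervals (hiA 0 t0) (hiA t0 1)
    have g3 : ∫ t in (0:ℝ)..t0, faceW D k j i t ≤ ∫ t in (0:ℝ)..t0, sliceA D k t :=
      intervalIntegral.integral_mono_on_of_le_Ioo ht0.1.le (hiW _ _) (hiA _ _)
        fun t ht => hWle t ⟨ht.1, ht.2.trans ht0.2⟩
    have g4 : ∫ t in t0..(1:ℝ), faceW D k j i t ≤ 0 := by
      have := intervalIntegral.integral_mono_on_of_le_Ioo ht0.2.le (hiW t0 1)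
        (intervalIntegrable_const (c := (0:ℝ))) fun t ht => (hz t ⟨ht.1.le, ht.2⟩).le
      simpa using this
    have g5 : endA1 D k * (1 - t0) ≤ ∫ t in t0..(1:ℝ), sliceA D k t := by
      have := intervalIntegral.integral_mono_on_of_le_Ioo ht0.2.le
        (intervalIntegrable_const (c := endA1 D k)) (hiA t0 1)
        fun t ht => endA1_le_sliceA hD k ⟨ht0.1.trans ht.1, ht.2⟩
      rwa [intervalIntegral.integral_const, smul_eq_mul, mul_comm] at this
    rw [hWint, hcyl] at g1
    rw [hAint, hv] at g2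
    linarith [mul_pos hk (sub_pos.2 ht0.2)]
  have hL : LengthBound D k fun _ => 1 := by
    have hG := sliceGen D hD k j i hjk.symm hik.symm hij.symm (fun _ => 1) (fun _ => 0)
      measurable_const measurable_const (fun _ => ⟨le_rfl, zero_le_one⟩)
    refine hG fun t ht => ⟨fun a => absurd a (hpos t ht).ne', ?_, fun _ _ => le_max_left _ _,
      fun a => absurd a (hpos t ht).ne'⟩
    intro _ b
    rw [faceW_eq_zero faceBasics hD hik.symm hjk.symm hij hi t ht] at b
    exact absurd b (lt_irrefl _)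
  have he := hS.end1 k _ hL 1 (Eventually.of_forall fun _ => le_rfl)
  rw [hv] at hk1v
  have := mul_le_mul_of_nonneg_left hk1v hh.le
  rw [mul_one_div] at this
  have : 0 < h / Real.pi := div_pos hh hp
  have e3 : 3 * h / Real.pi = 3 * (h / Real.pi) := by ring
  linarith

lemma sqrt_end1 (hD : IsDown D) (hS : Stationary D h c) (hv : dvol D = 1 / Real.pi) (j : Fin 3) :
    √(Real.pi * endA1 D j) ≤ h * endA1 D j + c j := by
  obtain ⟨-, -, -, -, -, -, hn, h1v, -, -⟩ := sliceBasics D hD j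
  rw [hv, le_div_iff₀ Real.pi_pos] at h1v
  have he := (ends_ell3 slice3 sliceBasics hD hS j).1
  rw [ell3_eq (by nlinarith [Real.pi_gt_three]),
    min_eq_right (Real.sqrt_le_one.2 (by linarith))] at he
  exact he

/-- The trace inequality on the face `x j = 1`. -/
lemma trace_ineq (hD : IsDown D) (hS : Stationary D h c) (hv : dvol D = 1 / Real.pi) (hh : 0 ≤ h)
    (hij : i ≠ j) (hik : i ≠ k) (hjk : j ≠ k) (hi : endA1 D i = 0) (hj : 0 < endA1 D j)
    (hlt : h / Real.pi + c j < 1) :
    Real.pi / 4 * faceExt D i j k + endA1 D j / faceExt D i j k ≤ c j + h * endA1 D j := by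
  obtain ⟨hanti, hWm, hWb, -, -⟩ := faceBasics D hD j k i hjk hij.symm hik.symm
  obtain ⟨-, -, -, -, -, -, -, h1v, -, -⟩ := sliceBasics D hD j
  rw [hv] at h1v
  by_cases hall : ∀ t ∈ Ioo (0:ℝ) 1, 0 < faceW D j k i t
  · exfalso
    have hL : LengthBound D j fun _ => 1 := by
      refine sliceGen D hD j k i hjk hij.symm hik.symm (fun _ => 1) (fun _ => 0)
        measurable_const measurable_const (fun _ => ⟨le_rfl, zero_le_one⟩) fun t ht =>
        ⟨fun a => absurd a (hall t ht).ne', ?_, fun _ _ => le_max_left _ _,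
          fun a => absurd a (hall t ht).ne'⟩
      intro _ b
      rw [faceW_eq_zero faceBasics hD hij.symm hjk hik hi t ht] at b
      exact absurd b (lt_irrefl _)
    have he := hS.end1 j _ hL 1 (Eventually.of_forall fun _ => le_rfl)
    have := mul_le_mul_of_nonneg_left h1v hh
    rw [mul_one_div] at this
    linarith
  push Not at hall
  obtain ⟨t0, ht0, hz⟩ := hall
  rw [add_comm (c j)]
  refine hS.end1 j _ (traceBound hD hij hik hjk hi (faceExt_pos hD hij hik hjk hj)) _ ?_
  filter_upwards [Ioo_mem_nhdsLT ht0.2] with t ht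
  rw [if_pos (le_antisymm ((hanti ht0 ⟨ht0.1.trans ht.1, ht.2⟩ ht.1.le).trans hz) (hWb t).1)]

/-- The facts on the axis `k`, whose slices meet the trace on the face `x j = 1`. -/
lemma axis_facts (hD : IsDown D) (hS : Stationary D h c) (hv : dvol D = 1 / Real.pi)
    (hA : area D ≤ 1) (hij : i ≠ j) (hik : i ≠ k) (hjk : j ≠ k) (hi : endA1 D i = 0)
    (hsum : ∑ l, c l = c j + c k) {al κ E : ℝ} (hκ0 : 0 ≤ κ) (hκ1 : κ ≤ 1) (hal : al ≤ phiK κ)
    (heE : faceExt D i j k ≤ E) :
    ∃ a1 a0, 0 ≤ a1 ∧ a1 ≤ 1 / Real.pi ∧ 1 / Real.pi ≤ a0 ∧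
      ellE al κ E a1 ≤ h * a1 + c k ∧ ellE al κ E a0 ≤ h * a0 + c k ∧
      (∫ s in a1..a0, bfun (h * s + c k) (ellE al κ E s)) ≤ 1 - h / Real.pi - c k ∧
      (∫ s in a1..a0, bfun (h * s + c k) (ellE al κ E s)) ≤ (h / Real.pi + c j - c k) / 2 := by
  obtain ⟨-, hAm, -, -, -, -, hn, h1v, hva, -⟩ := sliceBasics D hD k
  rw [hv] at h1v hva
  have hL : LengthBound D k fun t => ellE al κ E (sliceA D k t) := by
    refine sliceGen D hD k j i hjk.symm hik.symm hij.symm _ (fun _ => κ)
      ((continuous_ellE al κ E).measurable.comp hAm) measurable_const (fun _ => ⟨hκ0, hκ1⟩)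
      fun t ht => ⟨fun _ _ => min_le_left _ _, ?_, ?_, ?_⟩
    · intro _ b
      rw [faceW_eq_zero faceBasics hD hik.symm hjk.symm hij hi t ht] at b
      exact absurd b (lt_irrefl _)
    · intro _ _
      have hw : faceW D k j i t ≤ E := (width_le_faceExt hD hij hik hjk t).trans heE
      refine (min_le_right _ _).trans (max_le_max le_rfl ?_)
      linarith [mul_le_mul_of_nonneg_left hw hκ0]
    · intro _ b
      rw [faceW_eq_zero faceBasics hD hik.symm hjk.symm hij hi t ht] at b
      exact absurd b (lt_irrefl _)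
  have he1 := end1_continuous sliceBasics hD hS k (continuous_ellE al κ E) _ hL
    (Eventually.of_forall fun _ => le_rfl)
  have he0 := end0_continuous sliceBasics hD hS k (continuous_ellE al κ E) _ hL
    (Eventually.of_forall fun _ => le_rfl)
  have hm := mainIneq D h c hD hS k _ (continuous_ellE al κ E) hL
  have hs := hS.sum_eq
  rw [hsum, hv, mul_one_div] at hs
  rw [hv, mul_one_div] at hm
  have e3 : 3 * h / Real.pi = 3 * (h / Real.pi) := by ring
  exact ⟨_, _, hn, h1v, hva, he1, he0, by linarith, by linarith⟩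

end

lemma band_regions {W h o c e : ℝ} {Wz h0 h1 t top : ℤ} {A B : Tree} (hW : 0 < Wz)
    (eW : W = rv Wz) (hA : treeOK false Wz 2000000 A h0 h1 0 150000 = true)
    (hB : treeOK true Wz 2000000 B h0 h1 t top = true) (ht : t = 150000 + h0 / 2)
    (hev : h0 % 2 = 0) (htop : 1000000 ^ 2 - h0 * 318309 ≤ (top - h1 / 2) * 1000000)
    (hev1 : h1 % 2 = 0) (ha : rv h0 ≤ h) (hb : h ≤ rv h1) (hh : 0 ≤ h)
    (X : Ctx W 2 h o c e) : False := by
  have e2 : rv 2000000 = 2 := by norm_num [rv]
  rw [eW, ← e2] at X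
  rcases le_or_gt o (rv 150000) with ho | ho
  · refine tree_sound hW A h0 h1 0 150000 hA h o c e ha hb ?_ ?_ X
    · simpa [rv] using X.o_nonneg
    · simpa using ho
  · refine tree_sound hW B h0 h1 t top hB h o c e ha hb ?_ ?_ X
    · simp only [if_true]
      obtain ⟨k0, rfl⟩ := Int.dvd_of_emod_eq_zero hev
      rw [ht, Int.mul_ediv_cancel_left _ (by norm_num : (2:ℤ) ≠ 0)]
      simp only [rv] at ha ho ⊢
      push_cast at ha ho ⊢
      linarith
    · simp only [if_true]
      obtain ⟨k1, rfl⟩ := Int.dvd_of_emod_eq_zero hev1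
      rw [Int.mul_ediv_cancel_left _ (by norm_num : (2:ℤ) ≠ 0)] at htop
      have htop' := (Int.cast_le (R := ℝ)).2 htop
      push_cast at htop'
      have := (hv_bounds hh).1
      have := X.o_lt
      simp only [rv] at ha hb ⊢
      push_cast at ha hb ⊢
      linarith

/-- The case of a fat trace. -/
theorem fatCase {ha hb W : ℤ} (hmem : (ha, hb, W) ∈ bands) {D : Set V3} {h : ℝ}
    {c : Fin 3 → ℝ} (hD : IsDown D) (hS : Stationary D h c) (hv : dvol D = 1 / Real.pi)
    (hla : rv ha ≤ h) (hlb : h ≤ rv hb) (hh : h ≤ Real.pi / 2) (hA : area D ≤ 1)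
    (hc0 : ∀ l, 0 ≤ c l) {i j k : Fin 3} (hij : i ≠ j) (hik : i ≠ k) (hjk : j ≠ k)
    (hi : endA1 D i = 0) (hj : 0 < endA1 D j) (hk : 0 < endA1 D k)
    (hfat : rv W * faceExt D i j k < endA1 D j) : False := by
  have hp := Real.pi_pos
  have h1 : 1 ≤ h := by
    refine le_trans ?_ hla
    simp only [bands, List.mem_cons, List.not_mem_nil, or_false, Prod.mk.injEq] at hmem
    rcases hmem with ⟨rfl, -⟩ | ⟨rfl, -⟩ | ⟨rfl, -⟩ | ⟨rfl, -⟩ | ⟨rfl, -⟩ | ⟨rfl, -⟩ | ⟨rfl, -⟩ |
      ⟨rfl, -⟩ | ⟨rfl, -⟩ | ⟨rfl, -⟩ | ⟨rfl, -⟩ <;> norm_num [rv]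
  have hh0 : 0 < h := by linarith
  obtain ⟨a, b, -, -, -, hall, hs3⟩ := three_axes i
  have hsum : ∑ l, c l = c j + c k := by
    rw [hs3 c, hS.unspanned i hi, zero_add]
    rcases hall j with e | e | e <;> rcases hall k with e' | e' | e' <;> subst e <;> subst e' <;>
      first
      | exact absurd rfl hij
      | exact absurd rfl hik
      | exact absurd rfl hjk
      | ring
  have hltj := coef_lt hD hS hv hh0 hA hij hik hjk hi hj hk
  have hltk := coef_lt hD hS hv hh0 hA hik hij hjk.symm hi hk hj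
  have hs := hS.sum_eq
  rw [hsum, hv, mul_one_div] at hs
  have e3 : 3 * h / Real.pi = 3 * (h / Real.pi) := by ring
  obtain ⟨-, -, -, -, -, -, hn, hjv, -, -⟩ := sliceBasics D hD j
  rw [hv] at hjv
  have X : Ctx (rv W) 2 h (c k) (c j) (faceExt D i j k) :=
    { c_nonneg := hc0 j
      o_nonneg := hc0 k
      cap := by linarith [div_nonneg hh0.le hp.le]
      c_lt := hltj
      o_lt := hltk
      sum_le := by linarith
      e_pos := faceExt_pos hD hij hik hjk hj
      trace := ⟨endA1 D j, hn, hjv, sqrt_end1 hD hS hv j,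
        trace_ineq hD hS hv hh0.le hij hik hjk hi hj hltj, hfat⟩
      axis := fun al κ E a b d e => axis_facts hD hS hv hA hij hik hjk hi hsum a b d e }
  simp only [bands, List.mem_cons, List.not_mem_nil, or_false, Prod.mk.injEq] at hmem
  rcases hmem with ⟨rfl, rfl, rfl⟩ | ⟨rfl, rfl, rfl⟩ | ⟨rfl, rfl, rfl⟩ | ⟨rfl, rfl, rfl⟩ |
    ⟨rfl, rfl, rfl⟩ | ⟨rfl, rfl, rfl⟩ | ⟨rfl, rfl, rfl⟩ | ⟨rfl, rfl, rfl⟩ | ⟨rfl, rfl, rfl⟩ |
    ⟨rfl, rfl, rfl⟩ | ⟨rfl, rfl, rfl⟩
  · exact band_regions (by norm_num) rfl band0A_ok band0B_ok rfl rfl (by norm_num) rfl hla hlb hh0.le X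
  · exact band_regions (by norm_num) rfl band1A_ok band1B_ok rfl rfl (by norm_num) rfl hla hlb hh0.le X
  · exact band_regions (by norm_num) rfl band2A_ok band2B_ok rfl rfl (by norm_num) rfl hla hlb hh0.le X
  · exact band_regions (by norm_num) rfl band3A_ok band3B_ok rfl rfl (by norm_num) rfl hla hlb hh0.le X
  · exact band_regions (by norm_num) rfl band4A_ok band4B_ok rfl rfl (by norm_num) rfl hla hlb hh0.le X
  · exact band_regions (by norm_num) rfl band5A_ok band5B_ok rfl rfl (by norm_num) rfl hla hlb hh0.le X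
  · exact band_regions (by norm_num) rfl band6A_ok band6B_ok rfl rfl (by norm_num) rfl hla hlb hh0.le X
  · exact band_regions (by norm_num) rfl band7A_ok band7B_ok rfl rfl (by norm_num) rfl hla hlb hh0.le X
  · exact band_regions (by norm_num) rfl band8A_ok band8B_ok rfl rfl (by norm_num) rfl hla hlb hh0.le X
  · exact band_regions (by norm_num) rfl band9A_ok band9B_ok rfl rfl (by norm_num) rfl hla hlb hh0.le X
  · have e2 : rv 2000000 = 2 := by norm_num [rv]
    rcases le_or_gt (c k) (rv 50000) with ho | ho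
    swap
    · rw [← e2] at X
      refine tree_sound (by norm_num) band10B 1500000 1570798 _ _ band10B_ok h (c k) (c j) _ hla
        hlb (by simpa using ho.le) ?_ X
      simp only [Bool.false_eq_true, if_false]
      have := (hv_bounds hh0.le).1
      simp only [rv] at hla ⊢
      push_cast at hla ⊢
      linarith
    rcases le_or_gt (c j) (rv 450000) with hc3 | hc3
    · refine tree_sound (by norm_num) band10A 1500000 1570798 0 50000 band10A_ok h (c k) (c j) _
        hla hlb (by simpa [rv] using hc0 k) (by simpa using ho) { X with cap := hc3 }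
    have hak := sqrt_end1 hD hS hv k
    obtain ⟨-, -, -, -, -, -, hkn, hkv, -, -⟩ := sliceBasics D hD k
    rw [hv] at hkv
    have hek := trace_ineq hD hS hv hh0.le hik hij hjk.symm hi hk hltk
    have hekp := faceExt_pos hD hik hij hjk.symm hk
    simp only [rv] at ho hc3 hla
    norm_num at ho hc3 hla
    have hp0 := Real.pi_gt_d6
    have hp1 := Real.pi_lt_d6
    have hakv : endA1 D k ≤ 0.31831 := hkv.trans (by linarith [pi_bounds.2.2])
    have hq : √(endA1 D k) ≤ 0.5643 := Real.sqrt_le_iff.2 ⟨by norm_num, by linarith⟩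
    have hsp : (1.7724:ℝ) ≤ √Real.pi := Real.le_sqrt_of_sq_le (by linarith)
    rw [Real.sqrt_mul hp.le] at hak
    have hq0 := Real.sqrt_nonneg (endA1 D k)
    have hq2 : √(endA1 D k) ≤ 0.0567 := by
      have e1 := mul_le_mul_of_nonneg_right hsp hq0
      have e2 := mul_le_mul_of_nonneg_right (show h ≤ 1.5708 by linarith) hkn
      have e3 := Real.mul_self_sqrt hkn
      have e4 := mul_le_mul_of_nonneg_right hq hq0
      linarith
    have hak2 : endA1 D k ≤ 0.00322 := by
      rw [← Real.mul_self_sqrt hkn]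
      exact (mul_le_mul hq2 hq2 hq0 (by norm_num)).trans (by norm_num)
    have hE : faceExt D i k j ≤ 0.071 := by
      have e0 : 0 ≤ endA1 D k / faceExt D i k j := div_nonneg hkn hekp.le
      have e1 := mul_le_mul (show h ≤ 1.5708 by linarith) hak2 hkn (by norm_num)
      have e2 := mul_le_mul_of_nonneg_right hp0.le hekp.le
      norm_num at e1 e2 ⊢
      linarith
    have hphi : (0.8943:ℝ) ≤ phiK 0.7 :=
      le_trans (by norm_num) (phiK_ge (k := 0.7) (by norm_num) (by norm_num))
    obtain ⟨x1, x0, u1, u2, u3, u4, u5, u6, -⟩ := axis_facts hD hS hv hA hik hij hjk.symm hi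
      (hsum.trans (add_comm _ _)) (by norm_num) (by norm_num) hphi hE
    exact corner (by linarith) hh (by linarith) hltj u1 u2 u3 u4 u5 u6

/-- The large-slope half of two spanned axes at the slab kink. -/
theorem twoHighLe : TwoHighLe := by
  intro D h c hD hS hv hlo hhi hA hc0 i j k hij hik hjk hi hj hk
  have hband : ∃ ha hb W, (ha, hb, W) ∈ bands ∧ rv ha ≤ h ∧ h ≤ rv hb := by
    have hp1 := Real.pi_lt_d6
    simp only [bands, List.mem_cons, List.not_mem_nil, or_false, Prod.mk.injEq, rv]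
    norm_num at hlo hp1
    rcases le_or_gt h 1.04 with g | g1
    · exact ⟨_, _, _, Or.inl ⟨rfl, rfl, rfl⟩, by norm_num; linarith, by norm_num at g ⊢; linarith⟩
    rcases le_or_gt h 1.06 with g | g2
    · exact ⟨_, _, _, Or.inr (Or.inl ⟨rfl, rfl, rfl⟩), by norm_num at g1 ⊢; linarith,
        by norm_num at g ⊢; linarith⟩
    rcases le_or_gt h 1.08 with g | g3
    · exact ⟨_, _, _, Or.inr (Or.inr (Or.inl ⟨rfl, rfl, rfl⟩)), by norm_num at g2 ⊢; linarith,
        by norm_num at g ⊢; linarith⟩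
    rcases le_or_gt h 1.1 with g | g4
    · exact ⟨_, _, _, Or.inr (Or.inr (Or.inr (Or.inl ⟨rfl, rfl, rfl⟩))),
        by norm_num at g3 ⊢; linarith, by norm_num at g ⊢; linarith⟩
    rcases le_or_gt h 1.125 with g | g5
    · exact ⟨_, _, _, Or.inr (Or.inr (Or.inr (Or.inr (Or.inl ⟨rfl, rfl, rfl⟩)))),
        by norm_num at g4 ⊢; linarith, by norm_num at g ⊢; linarith⟩
    rcases le_or_gt h 1.15 with g | g6
    · exact ⟨_, _, _, Or.inr (Or.inr (Or.inr (Or.inr (Or.inr (Or.inl ⟨rfl, rfl, rfl⟩))))),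
        by norm_num at g5 ⊢; linarith, by norm_num at g ⊢; linarith⟩
    rcases le_or_gt h 1.2 with g | g7
    · exact ⟨_, _, _, Or.inr (Or.inr (Or.inr (Or.inr (Or.inr (Or.inr (Or.inl ⟨rfl, rfl, rfl⟩)))))),
        by norm_num at g6 ⊢; linarith, by norm_num at g ⊢; linarith⟩
    rcases le_or_gt h 1.25 with g | g8
    · exact ⟨_, _, _, Or.inr (Or.inr (Or.inr (Or.inr (Or.inr (Or.inr (Or.inr (Or.inl
        ⟨rfl, rfl, rfl⟩))))))), by norm_num at g7 ⊢; linarith, by norm_num at g ⊢; linarith⟩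
    rcases le_or_gt h 1.4 with g | g9
    · exact ⟨_, _, _, Or.inr (Or.inr (Or.inr (Or.inr (Or.inr (Or.inr (Or.inr (Or.inr (Or.inl
        ⟨rfl, rfl, rfl⟩)))))))), by norm_num at g8 ⊢; linarith, by norm_num at g ⊢; linarith⟩
    rcases le_or_gt h 1.5 with g | g10
    · exact ⟨_, _, _, Or.inr (Or.inr (Or.inr (Or.inr (Or.inr (Or.inr (Or.inr (Or.inr (Or.inr
        (Or.inl ⟨rfl, rfl, rfl⟩))))))))), by norm_num at g9 ⊢; linarith,
        by norm_num at g ⊢; linarith⟩
    exact ⟨_, _, _, Or.inr (Or.inr (Or.inr (Or.inr (Or.inr (Or.inr (Or.inr (Or.inr (Or.inr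
      (Or.inr ⟨rfl, rfl, rfl⟩))))))))), by norm_num at g10 ⊢; linarith, by norm_num; linarith⟩
  obtain ⟨ha, hb, W, hmem, hla, hlb⟩ := hband
  have main : ∀ j k : Fin 3, i ≠ j → i ≠ k → j ≠ k → 0 < endA1 D j → 0 < endA1 D k →
      faceExt D i k j ≤ faceExt D i j k → False := by
    intro j k hij hik hjk hj hk he
    rcases le_or_gt (endA1 D j) (rv W * faceExt D i j k) with g | g
    · exact thinCase ha hb W hmem D h c hD hS hv hla hlb hA hc0 i j k hij hik hjk hi hj hk he g
    · exact fatCase hmem hD hS hv hla hlb hhi hA hc0 hij hik hjk hi hj hk g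
  rcases le_total (faceExt D i k j) (faceExt D i j k) with g | g
  · exact main j k hij hik hjk hj hk g
  · exact main k j hik hij hjk.symm hk hj g

end Vale.Agent.P232.SlabHigh
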