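import Vale.Agent.P232.Interior

/-! # P232: checker for the numerical cells at the slab kink (all numbers in millionths) -/

namespace Vale.Agent.P232.SlabHigh

/-- One node: abscissa, branch of the segment to the right, and a weight for each corner. -/
structure Node where
  s : ℤ
  lin : Bool
  q00 : ℤ
  q01 : ℤ
  q10 : ℤ
  q11 : ℤ

/-- Data of one cell. -/
structure Cert where
  C : ℤ
  R : ℤ
  E : ℤ
  κ : ℤ
  al : ℤ
  half : Bool
  nodes : List Node

inductive Tree where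
  | out
  | empty (C R : ℤ)
  | leaf (c : Cert)
  | splitH (x : ℤ) (l r : Tree)
  | splitP (x : ℤ) (l r : Tree)

/-- Second coordinate of a corner. -/
def oOf (skew : Bool) (h p : ℤ) : ℤ := if skew then p - h / 2 else p

def linVal (c : Cert) (s : ℤ) : ℤ := c.al * 1000000 + c.κ * (s - c.E)

def branchVal (c : Cert) (lin : Bool) (s : ℤ) : ℤ :=
  if lin then linVal c s else 1000000000000

def fVal (h o s : ℤ) : ℤ := h * s + o * 1000000

def nodeOK (h o s B q : ℤ) : Bool :=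
  decide (0 < q) && decide (q ^ 2 * (3141592 * s) + fVal h o s ^ 2 ≤ 1000000 ^ 2 * (3141592 * s))
    && decide (q ^ 2 * B ^ 2 + fVal h o s ^ 2 * 1000000 ^ 2 ≤ 1000000 ^ 2 * B ^ 2)

def convOK (F0 F1 B0 B1 : ℤ) : Bool :=
  decide (0 ≤ (F1 ^ 2 * B0 ^ 2 - F0 ^ 2 * B1 ^ 2) * (B0 ^ 2 - (B1 - B0) ^ 2)
    + 2 * F0 ^ 2 * B1 ^ 2 * B0 * (B1 - B0) - 2 * F0 * (F1 - F0) * B0 ^ 2 * B1 ^ 2)
    && decide (F0 ^ 2 * B1 ^ 2 ≤ F1 ^ 2 * B0 ^ 2 ∨ B1 = B0)

def segOK (c : Cert) (h o : ℤ) (n m : Node) (q r : ℤ) : Bool :=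
  nodeOK h o n.s (branchVal c n.lin n.s) q && nodeOK h o m.s (branchVal c n.lin m.s) r
    && (!n.lin || convOK (fVal h o n.s) (fVal h o m.s) (linVal c n.s) (linVal c m.s))

/-- All segments at the four corners. -/
def chainOK (c : Cert) (h0 h1 o00 o01 o10 o11 : ℤ) : List Node → Bool
  | [] => true
  | [_] => true
  | n :: m :: rest =>
    decide (0 < n.s) && decide (n.s < m.s) && (!n.lin || decide (c.E ≤ n.s))
      && segOK c h0 o00 n m n.q00 m.q00 && segOK c h0 o01 n m n.q01 m.q01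
      && segOK c h1 o10 n m n.q10 m.q10 && segOK c h1 o11 n m n.q11 m.q11
      && chainOK c h0 h1 o00 o01 o10 o11 (m :: rest)

def lastS : List Node → ℤ
  | [] => 0
  | [n] => n.s
  | _ :: m :: rest => lastS (m :: rest)

def trap (f : Node → ℤ) : List Node → ℤ
  | [] => 0
  | [_] => 0
  | n :: m :: rest => (m.s - n.s) * (f n + f m) + trap f (m :: rest)

def target (c : Cert) (h o : ℤ) : ℤ :=
  if c.half then h * 318310 + (c.C - o) * 1000000
  else 2 * (1000000 ^ 2 - h * 318309 - o * 1000000)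

def capOK (c3 C h0 h1 o00 o01 o10 o11 : ℤ) : Bool :=
  decide (c3 ≤ C) || decide (1000000 ^ 2 - h0 * 318309 ≤ C * 1000000) ||
    (decide (2 * 1000000 ^ 2 - 3 * h0 * 318309 - o00 * 1000000 ≤ C * 1000000) &&
      decide (2 * 1000000 ^ 2 - 3 * h0 * 318309 - o01 * 1000000 ≤ C * 1000000) &&
      decide (2 * 1000000 ^ 2 - 3 * h1 * 318309 - o10 * 1000000 ≤ C * 1000000) &&
      decide (2 * 1000000 ^ 2 - 3 * h1 * 318309 - o11 * 1000000 ≤ C * 1000000))

def radOK (C R h1 : ℤ) : Bool :=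
  decide (318310 ≤ R) ||
    (decide (0 < R) && decide (R ≤ 318309) &&
      decide ((h1 * R + C * 1000000) ^ 2 < 3141592 * R * 1000000 ^ 2))

def widthOK (W : ℤ) (c : Cert) (h1 : ℤ) : Bool :=
  decide (c.R * 1000000 ≤ c.E * W) ||
    (decide (h1 * c.R ≤ W * 1000000) && decide (4 * h1 * W < 3141592 * 1000000) &&
      decide (4 * (c.C - W) * 1000000 ^ 2 ≤ c.E * (3141592 * 1000000 - 4 * h1 * W)))

def phiOK (c : Cert) : Bool :=
  decide (0 ≤ c.κ) && decide (c.κ ≤ 1000000) && decide (0 ≤ c.al) &&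
    decide (60 * 1000000 ^ 3 * c.al ≤
      60 * 1000000 ^ 4 - 10 * c.κ ^ 2 * 1000000 ^ 2 - 6 * c.κ ^ 4)

def leafOK (W c3 h0 h1 o00 o01 o10 o11 : ℤ) (c : Cert) : Bool :=
  capOK c3 c.C h0 h1 o00 o01 o10 o11 && radOK c.C c.R h1 && widthOK W c h1 && phiOK c &&
    chainOK c h0 h1 o00 o01 o10 o11 c.nodes &&
    (match c.nodes with
      | n :: _ :: _ => decide (n.s ≤ 318309)
      | _ => false) &&
    decide (318310 ≤ lastS c.nodes) &&
    decide (target c h0 o00 < trap Node.q00 c.nodes) &&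
    decide (target c h0 o01 < trap Node.q01 c.nodes) &&
    decide (target c h1 o10 < trap Node.q10 c.nodes) &&
    decide (target c h1 o11 < trap Node.q11 c.nodes)

def emptyOK (W c3 C R h0 h1 o00 o01 o10 o11 : ℤ) : Bool :=
  capOK c3 C h0 h1 o00 o01 o10 o11 && radOK C R h1 && decide (h1 * R ≤ W * 1000000) &&
    decide (4 * h1 * W < 3141592 * 1000000) && decide (C ≤ W)

def outOK (h0 h1 o00 o01 o10 o11 : ℤ) : Bool :=
  decide (1000000 ^ 2 ≤ o00 * 1000000 + h0 * 318309) &&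
    decide (1000000 ^ 2 ≤ o01 * 1000000 + h0 * 318309) &&
    decide (1000000 ^ 2 ≤ o10 * 1000000 + h1 * 318309) &&
    decide (1000000 ^ 2 ≤ o11 * 1000000 + h1 * 318309)

def boxOK (skew : Bool) (h0 h1 p0 p1 : ℤ) : Bool :=
  decide (0 < h0) && decide (h0 < h1) && decide (p0 < p1) &&
    (!skew || (decide (h0 % 2 = 0) && decide (h1 % 2 = 0))) &&
    decide (0 ≤ oOf skew h0 p0) && decide (0 ≤ oOf skew h1 p0)

/-- The checker. -/
def treeOK (skew : Bool) (W c3 : ℤ) : Tree → ℤ → ℤ → ℤ → ℤ → Bool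
  | .out, h0, h1, p0, p1 =>
    boxOK skew h0 h1 p0 p1 &&
      outOK h0 h1 (oOf skew h0 p0) (oOf skew h0 p1) (oOf skew h1 p0) (oOf skew h1 p1)
  | .empty C R, h0, h1, p0, p1 =>
    boxOK skew h0 h1 p0 p1 &&
      emptyOK W c3 C R h0 h1 (oOf skew h0 p0) (oOf skew h0 p1) (oOf skew h1 p0) (oOf skew h1 p1)
  | .leaf c, h0, h1, p0, p1 =>
    boxOK skew h0 h1 p0 p1 &&
      leafOK W c3 h0 h1 (oOf skew h0 p0) (oOf skew h0 p1) (oOf skew h1 p0) (oOf skew h1 p1) c
  | .splitH x l r, h0, h1, p0, p1 =>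
    treeOK skew W c3 l h0 x p0 p1 && treeOK skew W c3 r x h1 p0 p1
  | .splitP x l r, h0, h1, p0, p1 =>
    treeOK skew W c3 l h0 h1 p0 x && treeOK skew W c3 r h0 h1 x p1

end Vale.Agent.P232.SlabHigh
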