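import Vale.Agent.P232.Interface

/-! # P232: the split of the large-slope case at the slab kink -/

namespace Vale.Agent.P232.SlabHigh

open MeasureTheory Set

/-- Extent along `i` of the trace on the face `x j = 1`. -/
noncomputable def faceExt (D : Set V3) (i j k : Fin 3) : ℝ :=
  volume.real {t : ℝ | t ∈ Ioo (0 : ℝ) 1 ∧ 0 < faceW D i j k t}

/-- Slope bands and the threshold used on each, in millionths. -/
def bands : List (ℤ × ℤ × ℤ) :=
  [(1020000, 1040000, 490000), (1040000, 1060000, 480000), (1060000, 1080000, 465000),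
   (1080000, 1100000, 450000), (1100000, 1125000, 435000), (1125000, 1150000, 420000),
   (1150000, 1200000, 400000), (1200000, 1250000, 370000), (1250000, 1400000, 340000),
   (1400000, 1500000, 340000), (1500000, 1570798, 340000)]

/-- A thin trace is excluded by the calibration on the unspanned axis. -/
def ThinCase : Prop :=
  ∀ ha hb W : ℤ, (ha, hb, W) ∈ bands → ∀ D h c, IsDown D → Stationary D h c →
    dvol D = 1 / Real.pi → (ha : ℝ) / 1000000 ≤ h → h ≤ (hb : ℝ) / 1000000 → area D ≤ 1 →
    (∀ l, 0 ≤ c l) → ∀ i j k : Fin 3, i ≠ j → i ≠ k → j ≠ k → endA1 D i = 0 →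
    0 < endA1 D j → 0 < endA1 D k → faceExt D i k j ≤ faceExt D i j k →
    endA1 D j ≤ (W : ℝ) / 1000000 * faceExt D i j k → False

end Vale.Agent.P232.SlabHigh
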