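import Vale.Agent.P232.SlabHigh.Check
import Vale.Agent.P232.KinkAux

/-! # P232: soundness of the cell checker -/

namespace Vale.Agent.P232.SlabHigh

open MeasureTheory Set intervalIntegral

/-- Value of a number given in millionths. -/
noncomputable def rv (x : ℤ) : ℝ := (x : ℝ) / 1000000

/-- Length bound on a slice meeting one spanned face of width at most `E`. -/
noncomputable def ellE (al κ E s : ℝ) : ℝ := min √(Real.pi * s) (max 1 (al + κ * (s - E)))

lemma continuous_ellE (al κ E : ℝ) : Continuous (ellE al κ E) := by unfold ellE; fun_prop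

/-- What is known at a hypothetical minimiser. -/
structure Ctx (W c3 h o c e : ℝ) : Prop where
  c_nonneg : 0 ≤ c
  o_nonneg : 0 ≤ o
  cap : c ≤ c3
  c_lt : h / Real.pi + c < 1
  o_lt : h / Real.pi + o < 1
  sum_le : 3 * (h / Real.pi) + c + o ≤ 2
  e_pos : 0 < e
  trace : ∃ a1, 0 ≤ a1 ∧ a1 ≤ 1 / Real.pi ∧ √(Real.pi * a1) ≤ h * a1 + c ∧
    Real.pi / 4 * e + a1 / e ≤ c + h * a1 ∧ W * e < a1
  axis : ∀ al κ E, 0 ≤ κ → κ ≤ 1 → al ≤ phiK κ → e ≤ E → ∃ a1 a0, 0 ≤ a1 ∧ a1 ≤ 1 / Real.pi ∧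
    1 / Real.pi ≤ a0 ∧ ellE al κ E a1 ≤ h * a1 + o ∧ ellE al κ E a0 ≤ h * a0 + o ∧
    (∫ s in a1..a0, bfun (h * s + o) (ellE al κ E s)) ≤ 1 - h / Real.pi - o ∧
    (∫ s in a1..a0, bfun (h * s + o) (ellE al κ E s)) ≤ (h / Real.pi + c - o) / 2

lemma pi_bounds : (3141592 / 1000000 : ℝ) < Real.pi ∧ 318309 / 1000000 < 1 / Real.pi ∧
    1 / Real.pi < 318310 / 1000000 := by
  have h1 := Real.pi_gt_d6
  have h2 := Real.pi_lt_d6
  norm_num at h1 h2
  refine ⟨by linarith, ?_, ?_⟩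
  · rw [lt_div_iff₀ Real.pi_pos]; linarith
  · rw [div_lt_iff₀ Real.pi_pos]; linarith

lemma hv_bounds {h : ℝ} (hh : 0 ≤ h) :
    h * (318309 / 1000000) ≤ h / Real.pi ∧ h / Real.pi ≤ h * (318310 / 1000000) := by
  obtain ⟨-, a, b⟩ := pi_bounds
  rw [div_eq_mul_one_div h Real.pi]
  exact ⟨mul_le_mul_of_nonneg_left a.le hh, mul_le_mul_of_nonneg_left b.le hh⟩

/-- Coordinates of a point of a cell with respect to its corners. -/
structure Wts (h0 h1 o00 o01 o10 o11 : ℤ) (h o : ℝ) (m00 m01 m10 m11 : ℝ) : Prop where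
  n00 : 0 ≤ m00
  n01 : 0 ≤ m01
  n10 : 0 ≤ m10
  n11 : 0 ≤ m11
  sum1 : m00 + m01 + m10 + m11 = 1
  eh : h = m00 * rv h0 + m01 * rv h0 + m10 * rv h1 + m11 * rv h1
  eo : o = m00 * rv o00 + m01 * rv o01 + m10 * rv o10 + m11 * rv o11

lemma exists_wts {skew : Bool} {h0 h1 p0 p1 : ℤ} (hb : boxOK skew h0 h1 p0 p1 = true) {h o : ℝ}
    (hh0 : rv h0 ≤ h) (hh1 : h ≤ rv h1) (hp0 : rv p0 ≤ if skew then o + h / 2 else o)
    (hp1 : (if skew then o + h / 2 else o) ≤ rv p1) :
    ∃ m00 m01 m10 m11, Wts h0 h1 (oOf skew h0 p0) (oOf skew h0 p1) (oOf skew h1 p0)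
      (oOf skew h1 p1) h o m00 m01 m10 m11 := by
  simp only [boxOK, Bool.and_eq_true, Bool.or_eq_true, Bool.not_eq_true', decide_eq_true_eq]
    at hb
  obtain ⟨⟨⟨⟨⟨-, hlt⟩, plt⟩, hev⟩, -⟩, -⟩ := hb
  have dh : 0 < rv h1 - rv h0 := by
    have : (h0 : ℝ) < h1 := by exact_mod_cast hlt
    unfold rv; linarith
  have dp : 0 < rv p1 - rv p0 := by
    have : (p0 : ℝ) < p1 := by exact_mod_cast plt
    unfold rv; linarith
  set p := (if skew then o + h / 2 else o) with hp
  set t := (h - rv h0) / (rv h1 - rv h0) with ht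
  set u := (p - rv p0) / (rv p1 - rv p0) with hu
  have t0 : 0 ≤ t := div_nonneg (by linarith) dh.le
  have t1 : t ≤ 1 := (div_le_one dh).2 (by linarith)
  have u0 : 0 ≤ u := div_nonneg (by linarith) dp.le
  have u1 : u ≤ 1 := (div_le_one dp).2 (by linarith)
  have et : t * (rv h1 - rv h0) = h - rv h0 := div_mul_cancel₀ _ dh.ne'
  have eu : u * (rv p1 - rv p0) = p - rv p0 := div_mul_cancel₀ _ dp.ne'
  refine ⟨(1 - t) * (1 - u), (1 - t) * u, t * (1 - u), t * u,
    mul_nonneg (by linarith) (by linarith), mul_nonneg (by linarith) u0,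
    mul_nonneg t0 (by linarith), mul_nonneg t0 u0, by ring, by linear_combination -et, ?_⟩
  cases skew with
  | false =>
    simp only [oOf, Bool.false_eq_true, if_false] at hp ⊢
    rw [hp] at eu
    linear_combination -eu
  | true =>
    simp only [oOf, if_true] at hp ⊢
    simp only [reduceCtorEq, false_or] at hev
    obtain ⟨⟨k0, rfl⟩, ⟨k1, rfl⟩⟩ :=
      And.intro (Int.dvd_of_emod_eq_zero hev.1) (Int.dvd_of_emod_eq_zero hev.2)
    rw [hp] at eu
    simp only [rv, Int.mul_ediv_cancel_left _ (by norm_num : (2:ℤ) ≠ 0)] at et eu ⊢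
    push_cast at et eu ⊢
    linear_combination -eu + (1 / 2) * et

lemma Wts.lin {h0 h1 o00 o01 o10 o11 : ℤ} {h o m00 m01 m10 m11 : ℝ}
    (w : Wts h0 h1 o00 o01 o10 o11 h o m00 m01 m10 m11) (α β γ : ℝ) :
    α * h + β * o + γ = m00 * (α * rv h0 + β * rv o00 + γ) + m01 * (α * rv h0 + β * rv o01 + γ) +
      m10 * (α * rv h1 + β * rv o10 + γ) + m11 * (α * rv h1 + β * rv o11 + γ) := by
  have := w.sum1
  rw [w.eh, w.eo]
  linear_combination -γ * this

lemma Wts.le {h0 h1 o00 o01 o10 o11 : ℤ} {h o m00 m01 m10 m11 : ℝ}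
    (w : Wts h0 h1 o00 o01 o10 o11 h o m00 m01 m10 m11) (α β γ : ℝ)
    (a : α * rv h0 + β * rv o00 + γ ≤ 0) (b : α * rv h0 + β * rv o01 + γ ≤ 0)
    (c : α * rv h1 + β * rv o10 + γ ≤ 0) (d : α * rv h1 + β * rv o11 + γ ≤ 0) :
    α * h + β * o + γ ≤ 0 := by
  rw [w.lin α β γ]
  linarith [mul_nonpos_of_nonneg_of_nonpos w.n00 a, mul_nonpos_of_nonneg_of_nonpos w.n01 b,
    mul_nonpos_of_nonneg_of_nonpos w.n10 c, mul_nonpos_of_nonneg_of_nonpos w.n11 d]

lemma out_sound {h0 h1 o00 o01 o10 o11 : ℤ} {h o m00 m01 m10 m11 : ℝ}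
    (w : Wts h0 h1 o00 o01 o10 o11 h o m00 m01 m10 m11)
    (hk : outOK h0 h1 o00 o01 o10 o11 = true) (hh : 0 ≤ h)
    (hlt : h / Real.pi + o < 1) : False := by
  simp only [outOK, Bool.and_eq_true, decide_eq_true_eq] at hk
  obtain ⟨⟨⟨a, b⟩, c⟩, d⟩ := hk
  have a' := (Int.cast_le (R := ℝ)).2 a
  have b' := (Int.cast_le (R := ℝ)).2 b
  have c' := (Int.cast_le (R := ℝ)).2 c
  have d' := (Int.cast_le (R := ℝ)).2 d
  push_cast at a' b' c' d'
  have := w.le (-(318309 / 1000000)) (-1) 1 (by unfold rv; linarith) (by unfold rv; linarith)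
    (by unfold rv; linarith) (by unfold rv; linarith)
  linarith [(hv_bounds hh).1]

lemma cap_sound {c3 C h0 h1 o00 o01 o10 o11 : ℤ} {h o c m00 m01 m10 m11 : ℝ}
    (w : Wts h0 h1 o00 o01 o10 o11 h o m00 m01 m10 m11)
    (hk : capOK c3 C h0 h1 o00 o01 o10 o11 = true) (hh : 0 ≤ h) (hh0 : rv h0 ≤ h)
    (hc3 : c ≤ rv c3) (hlt : h / Real.pi + c < 1)
    (hsum : 3 * (h / Real.pi) + c + o ≤ 2) : c ≤ rv C := by
  simp only [capOK, Bool.and_eq_true, Bool.or_eq_true, decide_eq_true_eq] at hk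
  rcases hk with (hk | hk) | ⟨⟨⟨a, b⟩, d⟩, e⟩
  · have := (Int.cast_le (R := ℝ)).2 hk
    unfold rv at hc3 ⊢; linarith
  · have := (Int.cast_le (R := ℝ)).2 hk
    push_cast at this
    have h2 := (hv_bounds hh).1
    unfold rv at hh0 ⊢; linarith
  · have a' := (Int.cast_le (R := ℝ)).2 a
    have b' := (Int.cast_le (R := ℝ)).2 b
    have d' := (Int.cast_le (R := ℝ)).2 d
    have e' := (Int.cast_le (R := ℝ)).2 e
    push_cast at a' b' d' e'
    have := w.le (-(3 * (318309 / 1000000))) (-1) (2 - rv C) (by unfold rv; linarith)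
      (by unfold rv; linarith) (by unfold rv; linarith) (by unfold rv; linarith)
    linarith [(hv_bounds hh).1]

lemma rad_sound {C R h1 : ℤ} {h c a1 : ℝ} (hk : radOK C R h1 = true) (hh : 0 ≤ h)
    (hh1 : h ≤ rv h1) (hc : c ≤ rv C) (hc0 : 0 ≤ c) (ha : a1 ≤ 1 / Real.pi)
    (he : √(Real.pi * a1) ≤ h * a1 + c) (hlt : h / Real.pi + c < 1) :
    a1 ≤ rv R := by
  obtain ⟨hpi, hvl, hvu⟩ := pi_bounds
  simp only [radOK, Bool.and_eq_true, Bool.or_eq_true, decide_eq_true_eq] at hk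
  rcases hk with hk | ⟨⟨hR0, hR1⟩, hR2⟩
  · have := (Int.cast_le (R := ℝ)).2 hk
    push_cast at this
    unfold rv; linarith
  have r0 : (0:ℝ) < rv R := by
    have : (0:ℝ) < R := by exact_mod_cast hR0
    unfold rv; positivity
  have r1 : rv R < 1 / Real.pi := by
    have := (Int.cast_le (R := ℝ)).2 hR1
    push_cast at this
    unfold rv; linarith
  have r2 := (Int.cast_lt (R := ℝ)).2 hR2
  push_cast at r2
  by_contra hcon
  rw [not_le] at hcon
  have hq0 : (h * rv R + c) ^ 2 < Real.pi * rv R := by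
    have g1 : (h * rv R + c) ^ 2 ≤ (rv h1 * rv R + rv C) ^ 2 :=
      pow_le_pow_left₀ (by positivity) (by linarith [mul_le_mul_of_nonneg_right hh1 r0.le]) 2
    have g2 : (rv h1 * rv R + rv C) ^ 2 < 3141592 / 1000000 * rv R := by unfold rv; linarith
    linarith [mul_lt_mul_of_pos_right hpi r0]
  have hq1 : (h * (1 / Real.pi) + c) ^ 2 < Real.pi * (1 / Real.pi) := by
    rw [mul_one_div, mul_one_div_cancel Real.pi_pos.ne']
    exact pow_lt_one₀ (by positivity) hlt two_ne_zero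
  have hq := (Real.sqrt_le_iff.1 he).2
  set V := 1 / Real.pi
  set s := (a1 - rv R) / (V - rv R) with hs
  have s0 : 0 ≤ s := div_nonneg (by linarith) (by linarith)
  have s1 : s ≤ 1 := (div_le_one (by linarith)).2 (by linarith)
  have ea : a1 = (1 - s) * rv R + s * V := by
    have : s * (V - rv R) = a1 - rv R := div_mul_cancel₀ _ (by linarith)
    linarith
  rw [ea] at hq
  have g3 : (1 - s) * ((h * rv R + c) ^ 2 - Real.pi * rv R) +
      s * ((h * V + c) ^ 2 - Real.pi * V) < 0 := by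
    rcases s1.lt_or_eq with hs1 | hs1
    · linarith [mul_neg_of_pos_of_neg (sub_pos.2 hs1) (sub_neg.2 hq0),
        mul_nonpos_of_nonneg_of_nonpos s0 (sub_nonpos.2 hq1.le)]
    · rw [hs1]; linarith
  linarith [mul_nonneg (mul_nonneg s0 (sub_nonneg.2 s1)) (sq_nonneg (h * (V - rv R)))]

lemma width_linear {W C h1 : ℤ} {h c e a1 : ℝ} {R : ℤ} (hW : 0 < W)
    (h1R : h1 * R ≤ W * 1000000) (hh : 0 ≤ h) (hh1 : h ≤ rv h1)
    (hc : c ≤ rv C) (he : 0 < e) (htr : Real.pi / 4 * e + a1 / e ≤ c + h * a1)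
    (hfat : rv W * e < a1) (haR : a1 ≤ rv R) :
    e * (3141592 / 4000000 - rv h1 * rv W) ≤ rv C - rv W ∧ rv W * e < rv R := by
  obtain ⟨hpi, -, -⟩ := pi_bounds
  have hW' : 0 < rv W := by
    have : (0:ℝ) < W := by exact_mod_cast hW
    unfold rv; positivity
  have hWR : rv W * e < rv R := hfat.trans_le haR
  refine ⟨?_, hWR⟩
  have hh1R : rv h1 * rv R ≤ rv W := by
    have := (Int.cast_le (R := ℝ)).2 h1R
    push_cast at this
    unfold rv; linarith
  have hhe : h * e ≤ 1 := by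
    refine le_of_mul_le_mul_left ?_ hW'
    have g1 := mul_le_mul_of_nonneg_right hh1 he.le
    have g2 := mul_le_mul_of_nonneg_left hWR.le (hh.trans hh1)
    have g3 := mul_le_mul_of_nonneg_left g1 hW'.le
    linarith
  set b := a1 / e with hb
  have hab : a1 = b * e := (div_mul_cancel₀ a1 he.ne').symm
  have hbW : rv W ≤ b := (le_div_iff₀ he).2 hfat.le
  rw [hab] at htr
  have g4 := mul_nonneg (sub_nonneg.2 hbW) (sub_nonneg.2 hhe)
  have g5 := mul_le_mul_of_nonneg_right hpi.le he.le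
  have g6 := mul_le_mul_of_nonneg_right hh1 (mul_nonneg hW'.le he.le)
  linarith

lemma empty_sound {W c3 C R h0 h1 o00 o01 o10 o11 : ℤ} {h o c e m00 m01 m10 m11 : ℝ} (hW : 0 < W)
    (w : Wts h0 h1 o00 o01 o10 o11 h o m00 m01 m10 m11)
    (hk : emptyOK W c3 C R h0 h1 o00 o01 o10 o11 = true) (hh : 0 ≤ h) (hh0 : rv h0 ≤ h)
    (hh1 : h ≤ rv h1) (X : Ctx (rv W) (rv c3) h o c e) : False := by
  simp only [emptyOK, Bool.and_eq_true, decide_eq_true_eq] at hk
  obtain ⟨⟨⟨⟨hcap, hrad⟩, h1R⟩, hden⟩, hCW⟩ := hk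
  have hc := cap_sound w hcap hh hh0 X.cap X.c_lt X.sum_le
  obtain ⟨a1, -, haV, hae, htr, hfat⟩ := X.trace
  obtain ⟨hlin, -⟩ := width_linear hW h1R hh hh1 hc X.e_pos htr hfat
    (rad_sound hrad hh hh1 hc X.c_nonneg haV hae X.c_lt)
  have hd := (Int.cast_lt (R := ℝ)).2 hden
  have hCW' := (Int.cast_le (R := ℝ)).2 hCW
  push_cast at hd
  have hpos : 0 < 3141592 / 4000000 - rv h1 * rv W := by unfold rv; linarith
  have := mul_pos X.e_pos hpos
  have : rv C ≤ rv W := by unfold rv; linarith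
  linarith

/-- Convexity of `F² / B` in both arguments. -/
lemma qol {τ F0 F1 a b : ℝ} (t0 : 0 ≤ τ) (t1 : τ ≤ 1) (ha : 0 < a) (hb : 0 < b) :
    ((1 - τ) * F0 + τ * F1) ^ 2 / ((1 - τ) * a + τ * b) ≤
      (1 - τ) * (F0 ^ 2 / a) + τ * (F1 ^ 2 / b) := by
  have hm : 0 < (1 - τ) * a + τ * b := by
    rcases t0.eq_or_lt with e | e
    · rw [← e]; linarith
    · linarith [mul_pos e hb, mul_nonneg (sub_nonneg.2 t1) ha.le]
  have key : (1 - τ) * (F0 ^ 2 / a) + τ * (F1 ^ 2 / b) -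
      ((1 - τ) * F0 + τ * F1) ^ 2 / ((1 - τ) * a + τ * b) =
      τ * (1 - τ) * (F0 * b - F1 * a) ^ 2 / (a * b * ((1 - τ) * a + τ * b)) := by
    field_simp
    ring
  have := div_nonneg (mul_nonneg (mul_nonneg t0 (sub_nonneg.2 t1)) (sq_nonneg (F0 * b - F1 * a)))
    (mul_nonneg (mul_nonneg ha.le hb.le) hm.le)
  linarith

/-- Convexity of the square of a quotient of affine functions, under a numerical condition. -/
lemma conv_frac {τ F0 F1 a b : ℝ} (t0 : 0 ≤ τ) (t1 : τ ≤ 1) (ha : 0 < a) (hb : 0 < b)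
    (cond : 0 ≤ (F1 ^ 2 * a ^ 2 - F0 ^ 2 * b ^ 2) * (a ^ 2 - (b - a) ^ 2)
      + 2 * F0 ^ 2 * b ^ 2 * a * (b - a) - 2 * F0 * (F1 - F0) * a ^ 2 * b ^ 2)
    (mono : F0 ^ 2 * b ^ 2 ≤ F1 ^ 2 * a ^ 2 ∨ b = a) :
    ((1 - τ) * F0 + τ * F1) ^ 2 / ((1 - τ) * a + τ * b) ^ 2 ≤
      (1 - τ) * (F0 ^ 2 / a ^ 2) + τ * (F1 ^ 2 / b ^ 2) := by
  have hm : 0 < (1 - τ) * a + τ * b := by
    rcases t0.eq_or_lt with e | e
    · rw [← e]; linarith
    · linarith [mul_pos e hb, mul_nonneg (sub_nonneg.2 t1) ha.le]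
  have key : (1 - τ) * (F0 ^ 2 / a ^ 2) + τ * (F1 ^ 2 / b ^ 2) -
      ((1 - τ) * F0 + τ * F1) ^ 2 / ((1 - τ) * a + τ * b) ^ 2 =
      τ * (1 - τ) * (((F1 ^ 2 * a ^ 2 - F0 ^ 2 * b ^ 2) * (a ^ 2 - (b - a) ^ 2)
        + 2 * F0 ^ 2 * b ^ 2 * a * (b - a) - 2 * F0 * (F1 - F0) * a ^ 2 * b ^ 2)
        + (1 - τ) * ((b - a) ^ 2 * (F1 ^ 2 * a ^ 2 - F0 ^ 2 * b ^ 2))) /
        (a ^ 2 * b ^ 2 * ((1 - τ) * a + τ * b) ^ 2) := by
    field_simp
    ring
  have hnn : 0 ≤ (b - a) ^ 2 * (F1 ^ 2 * a ^ 2 - F0 ^ 2 * b ^ 2) := by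
    rcases mono with h | h
    · exact mul_nonneg (sq_nonneg _) (sub_nonneg.2 h)
    · simp [h]
  have := div_nonneg (mul_nonneg (mul_nonneg t0 (sub_nonneg.2 t1))
    (add_nonneg cond (mul_nonneg (sub_nonneg.2 t1) hnn)))
    (mul_nonneg (mul_nonneg (sq_nonneg a) (sq_nonneg b)) (sq_nonneg ((1 - τ) * a + τ * b)))
  linarith

/-- Slice length bound of the segment. -/
noncomputable def brV (al κ E : ℝ) (lin : Bool) (s : ℝ) : ℝ :=
  if lin then al + κ * (s - E) else 1

lemma node_real {h o s q : ℤ} {c : Cert} {lin : Bool} (hh : 0 < h) (ho : 0 ≤ o) (hs : 0 < s)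
    (hB : 0 ≤ branchVal c lin s) (hk : nodeOK h o s (branchVal c lin s) q = true) :
    0 < rv q ∧ 0 < brV (rv c.al) (rv c.κ) (rv c.E) lin (rv s) ∧
    rv q ^ 2 + (rv h * rv s + rv o) ^ 2 / (3141592 / 1000000 * rv s) ≤ 1 ∧
    rv q ^ 2 + (rv h * rv s + rv o) ^ 2 / brV (rv c.al) (rv c.κ) (rv c.E) lin (rv s) ^ 2 ≤ 1 := by
  simp only [nodeOK, Bool.and_eq_true, decide_eq_true_eq] at hk
  obtain ⟨⟨hq, hA⟩, hB'⟩ := hk
  have hF : 0 < fVal h o s := by unfold fVal; linarith [mul_pos hh hs]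
  have hBpos : 0 < branchVal c lin s := by
    rcases hB.lt_or_eq with hlt | heq
    · exact hlt
    · rw [← heq] at hB'
      have := mul_pos (pow_pos hF 2) (pow_pos (show (0:ℤ) < 1000000 by norm_num) 2)
      linarith
  have eb : brV (rv c.al) (rv c.κ) (rv c.E) lin (rv s) =
      (branchVal c lin s : ℝ) / 1000000 ^ 2 := by
    cases lin <;> simp only [brV, branchVal, linVal, rv, Bool.false_eq_true, if_false, if_true] <;>
      push_cast <;> ring
  have ef : rv h * rv s + rv o = (fVal h o s : ℝ) / 1000000 ^ 2 := by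
    simp only [fVal, rv]; push_cast; ring
  rw [eb, ef]
  have hs' : (0:ℝ) < s := by exact_mod_cast hs
  have hq' : (0:ℝ) < q := by exact_mod_cast hq
  have hb' : (0:ℝ) < branchVal c lin s := by exact_mod_cast hBpos
  have hA' := (Int.cast_le (R := ℝ)).2 hA
  have hB'' := (Int.cast_le (R := ℝ)).2 hB'
  push_cast at hA' hB''
  generalize (fVal h o s : ℝ) = F at *
  generalize (branchVal c lin s : ℝ) = B at *
  unfold rv
  refine ⟨by positivity, by positivity, ?_, ?_⟩
  · rw [← le_sub_iff_add_le', div_le_iff₀ (by positivity)]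
    linarith
  · rw [← le_sub_iff_add_le', div_le_iff₀ (by positivity)]
    linarith

/-- The chord of one segment at one corner. -/
lemma corner_seg {h o : ℤ} {c : Cert} {n m : Node} {q r : ℤ} (hh : 0 < h) (ho : 0 ≤ o)
    (hns : 0 < n.s) (hnm : n.s < m.s) (hEn : n.lin = true → c.E ≤ n.s) (hal : 0 ≤ c.al)
    (hκ : 0 ≤ c.κ) (hk : segOK c h o n m q r = true) {τ : ℝ} (t0 : 0 ≤ τ) (t1 : τ ≤ 1) {s : ℝ}
    (es : s = (1 - τ) * rv n.s + τ * rv m.s) :
    0 < (1 - τ) * rv q + τ * rv r ∧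
    0 < brV (rv c.al) (rv c.κ) (rv c.E) n.lin s ∧
    ((1 - τ) * rv q + τ * rv r) ^ 2 + (rv h * s + rv o) ^ 2 / (3141592 / 1000000 * s) ≤ 1 ∧
    ((1 - τ) * rv q + τ * rv r) ^ 2 +
      (rv h * s + rv o) ^ 2 / brV (rv c.al) (rv c.κ) (rv c.E) n.lin s ^ 2 ≤ 1 := by
  simp only [segOK, Bool.and_eq_true, Bool.or_eq_true, Bool.not_eq_true'] at hk
  obtain ⟨⟨hn, hm⟩, hcv⟩ := hk
  have hbn : ∀ t, n.s ≤ t → 0 ≤ branchVal c n.lin t := by
    intro t ht
    unfold branchVal linVal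
    cases hl : n.lin with
    | false => simp
    | true =>
      simp only [if_true]
      have := hEn hl
      have : 0 ≤ c.κ * (t - c.E) := mul_nonneg hκ (by linarith)
      linarith
  obtain ⟨q0, b0, hq1, hq2⟩ := node_real hh ho hns (hbn _ le_rfl) hn
  obtain ⟨r0, b1, hr1, hr2⟩ := node_real hh ho (hns.trans hnm) (hbn _ hnm.le) hm
  have hs0 : 0 < rv n.s := by
    have : (0:ℝ) < n.s := by exact_mod_cast hns
    unfold rv; positivity
  have hs1 : 0 < rv m.s := by
    have : (0:ℝ) < m.s := by exact_mod_cast hns.trans hnm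
    unfold rv; positivity
  have ypos : 0 < (1 - τ) * rv q + τ * rv r := by
    rcases t0.eq_or_lt with e | e
    · rw [← e]; linarith
    · linarith [mul_pos e r0, mul_nonneg (sub_nonneg.2 t1) q0.le]
  have ey : ((1 - τ) * rv q + τ * rv r) ^ 2 ≤ (1 - τ) * rv q ^ 2 + τ * rv r ^ 2 := by
    linarith [mul_nonneg (mul_nonneg t0 (sub_nonneg.2 t1)) (sq_nonneg (rv q - rv r))]
  have eF : rv h * s + rv o =
      (1 - τ) * (rv h * rv n.s + rv o) + τ * (rv h * rv m.s + rv o) := by rw [es]; ring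
  have eB : brV (rv c.al) (rv c.κ) (rv c.E) n.lin s =
      (1 - τ) * brV (rv c.al) (rv c.κ) (rv c.E) n.lin (rv n.s) +
        τ * brV (rv c.al) (rv c.κ) (rv c.E) n.lin (rv m.s) := by
    rw [es]; cases n.lin <;> simp [brV] <;> ring
  have bpos : 0 < brV (rv c.al) (rv c.κ) (rv c.E) n.lin s := by
    rw [eB]
    rcases t0.eq_or_lt with e | e
    · rw [← e]; linarith
    · linarith [mul_pos e b1, mul_nonneg (sub_nonneg.2 t1) b0.le]
  refine ⟨ypos, bpos, ?_, ?_⟩
  · have := qol (F0 := rv h * rv n.s + rv o) (F1 := rv h * rv m.s + rv o) t0 t1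
      (mul_pos (show (0:ℝ) < 3141592 / 1000000 by norm_num) hs0)
      (mul_pos (show (0:ℝ) < 3141592 / 1000000 by norm_num) hs1)
    rw [eF, show 3141592 / 1000000 * s = (1 - τ) * (3141592 / 1000000 * rv n.s) +
      τ * (3141592 / 1000000 * rv m.s) by rw [es]; ring]
    linarith [mul_le_mul_of_nonneg_left hq1 (sub_nonneg.2 t1), mul_le_mul_of_nonneg_left hr1 t0]
  · rw [eF, eB]
    set B0 := brV (rv c.al) (rv c.κ) (rv c.E) n.lin (rv n.s) with hB0
    set B1 := brV (rv c.al) (rv c.κ) (rv c.E) n.lin (rv m.s) with hB1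
    set F0 := rv h * rv n.s + rv o with hF0
    set F1 := rv h * rv m.s + rv o with hF1
    have key : ((1 - τ) * F0 + τ * F1) ^ 2 / ((1 - τ) * B0 + τ * B1) ^ 2 ≤
        (1 - τ) * (F0 ^ 2 / B0 ^ 2) + τ * (F1 ^ 2 / B1 ^ 2) := by
      rcases hcv with hl | hcv
      · have e0 : B0 = 1 := by simp [hB0, brV, hl]
        have e1 : B1 = 1 := by simp [hB1, brV, hl]
        rw [e0, e1]
        simp only [one_pow, div_one, mul_one, sub_add_cancel]
        linarith [mul_nonneg (mul_nonneg t0 (sub_nonneg.2 t1)) (sq_nonneg (F0 - F1))]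
      · cases hl : n.lin with
        | false =>
          have e0 : B0 = 1 := by simp [hB0, brV, hl]
          have e1 : B1 = 1 := by simp [hB1, brV, hl]
          rw [e0, e1]
          simp only [one_pow, div_one, mul_one, sub_add_cancel]
          linarith [mul_nonneg (mul_nonneg t0 (sub_nonneg.2 t1)) (sq_nonneg (F0 - F1))]
        | true =>
          simp only [convOK, Bool.and_eq_true, decide_eq_true_eq] at hcv
          have i0 : (linVal c n.s : ℝ) = 1000000 ^ 2 * B0 := by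
            simp only [hB0, brV, hl, if_true, linVal, rv]; push_cast; ring
          have i1 : (linVal c m.s : ℝ) = 1000000 ^ 2 * B1 := by
            simp only [hB1, brV, hl, if_true, linVal, rv]; push_cast; ring
          have j0 : (fVal h o n.s : ℝ) = 1000000 ^ 2 * F0 := by
            simp only [hF0, fVal, rv]; push_cast; ring
          have j1 : (fVal h o m.s : ℝ) = 1000000 ^ 2 * F1 := by
            simp only [hF1, fVal, rv]; push_cast; ring
          refine conv_frac t0 t1 b0 b1 ?_ ?_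
          · have := (Int.cast_le (R := ℝ)).2 hcv.1
            push_cast [i0, i1, j0, j1] at this
            linarith
          · rcases hcv.2 with hc | hc
            · left
              have := (Int.cast_le (R := ℝ)).2 hc
              push_cast [i0, i1, j0, j1] at this
              linarith
            · right
              have := congrArg (fun z : ℤ => (z : ℝ)) hc
              simp only [i0, i1] at this
              linarith
    linarith [mul_le_mul_of_nonneg_left hq2 (sub_nonneg.2 t1), mul_le_mul_of_nonneg_left hr2 t0]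

/-- Combination of the four corners at one abscissa. -/
lemma combine4 {m00 m01 m10 m11 a b c d A B C' D' X : ℝ} (n00 : 0 ≤ m00) (n01 : 0 ≤ m01)
    (n10 : 0 ≤ m10) (n11 : 0 ≤ m11) (sum1 : m00 + m01 + m10 + m11 = 1) (hX : 0 < X)
    (ha : a ^ 2 + A ^ 2 / X ≤ 1) (hb : b ^ 2 + B ^ 2 / X ≤ 1) (hc : c ^ 2 + C' ^ 2 / X ≤ 1)
    (hd : d ^ 2 + D' ^ 2 / X ≤ 1) :
    (m00 * a + m01 * b + m10 * c + m11 * d) ^ 2 +
      (m00 * A + m01 * B + m10 * C' + m11 * D') ^ 2 / X ≤ 1 := by
  have jensen : ∀ w x y z : ℝ, (m00 * w + m01 * x + m10 * y + m11 * z) ^ 2 ≤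
      m00 * w ^ 2 + m01 * x ^ 2 + m10 * y ^ 2 + m11 * z ^ 2 := by
    intro w x y z
    have h2 : m11 = 1 - m00 - m01 - m10 := by linarith
    linarith [mul_nonneg (mul_nonneg n00 n01) (sq_nonneg (w - x)),
      mul_nonneg (mul_nonneg n00 n10) (sq_nonneg (w - y)),
      mul_nonneg (mul_nonneg n00 n11) (sq_nonneg (w - z)),
      mul_nonneg (mul_nonneg n01 n10) (sq_nonneg (x - y)),
      mul_nonneg (mul_nonneg n01 n11) (sq_nonneg (x - z)),
      mul_nonneg (mul_nonneg n10 n11) (sq_nonneg (y - z)),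
      show m00 * w ^ 2 + m01 * x ^ 2 + m10 * y ^ 2 + m11 * z ^ 2 -
        (m00 * w + m01 * x + m10 * y + m11 * z) ^ 2 =
        m00 * m01 * (w - x) ^ 2 + m00 * m10 * (w - y) ^ 2 + m00 * m11 * (w - z) ^ 2 +
        m01 * m10 * (x - y) ^ 2 + m01 * m11 * (x - z) ^ 2 + m10 * m11 * (y - z) ^ 2 by
          rw [h2]; ring]
  have h2 := div_le_div_of_nonneg_right (jensen A B C' D') hX.le
  rw [add_div, add_div, add_div, mul_div_assoc, mul_div_assoc, mul_div_assoc, mul_div_assoc] at h2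
  linarith [jensen a b c d, mul_le_mul_of_nonneg_left ha n00, mul_le_mul_of_nonneg_left hb n01,
    mul_le_mul_of_nonneg_left hc n10, mul_le_mul_of_nonneg_left hd n11]

section chain

variable {c : Cert} {h0 h1 o00 o01 o10 o11 : ℤ} {h o m00 m01 m10 m11 : ℝ}

/-- Weighted total of the trapezoidal sums. -/
noncomputable def wsum (m00 m01 m10 m11 : ℝ) (l : List Node) : ℝ :=
  (m00 * trap Node.q00 l + m01 * trap Node.q01 l + m10 * trap Node.q10 l + m11 * trap Node.q11 l) /
    (2 * 1000000 ^ 2)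

lemma seg_bound (w : Wts h0 h1 o00 o01 o10 o11 h o m00 m01 m10 m11) (p0 : 0 < h0) (p1 : 0 < h1)
    (u00 : 0 ≤ o00) (u01 : 0 ≤ o01) (u10 : 0 ≤ o10) (u11 : 0 ≤ o11) (hal : 0 ≤ c.al)
    (hκ : 0 ≤ c.κ) {n m : Node} (hns : 0 < n.s) (hnm : n.s < m.s)
    (hEn : n.lin = true → c.E ≤ n.s)
    (k00 : segOK c h0 o00 n m n.q00 m.q00 = true) (k01 : segOK c h0 o01 n m n.q01 m.q01 = true)
    (k10 : segOK c h1 o10 n m n.q10 m.q10 = true) (k11 : segOK c h1 o11 n m n.q11 m.q11 = true)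
    {s : ℝ} (hs : s ∈ Icc (rv n.s) (rv m.s)) :
    h * s + o < ellE (rv c.al) (rv c.κ) (rv c.E) s ∧
    (m00 * (rv n.q00 + (rv m.q00 - rv n.q00) / (rv m.s - rv n.s) * (s - rv n.s)) +
     m01 * (rv n.q01 + (rv m.q01 - rv n.q01) / (rv m.s - rv n.s) * (s - rv n.s)) +
     m10 * (rv n.q10 + (rv m.q10 - rv n.q10) / (rv m.s - rv n.s) * (s - rv n.s)) +
     m11 * (rv n.q11 + (rv m.q11 - rv n.q11) / (rv m.s - rv n.s) * (s - rv n.s))) ≤
      bfun (h * s + o) (ellE (rv c.al) (rv c.κ) (rv c.E) s) := by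
  have hd : 0 < rv m.s - rv n.s := by
    have : (n.s : ℝ) < m.s := by exact_mod_cast hnm
    unfold rv; linarith
  set τ := (s - rv n.s) / (rv m.s - rv n.s) with hτ
  have t0 : 0 ≤ τ := div_nonneg (by linarith [hs.1]) hd.le
  have t1 : τ ≤ 1 := (div_le_one hd).2 (by linarith [hs.2])
  have es : s = (1 - τ) * rv n.s + τ * rv m.s := by
    have : τ * (rv m.s - rv n.s) = s - rv n.s := div_mul_cancel₀ _ hd.ne'
    linarith
  obtain ⟨ya, bpos, a1, a2⟩ := corner_seg p0 u00 hns hnm hEn hal hκ k00 t0 t1 es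
  obtain ⟨yb, -, b1, b2⟩ := corner_seg p0 u01 hns hnm hEn hal hκ k01 t0 t1 es
  obtain ⟨yc, -, c1, c2⟩ := corner_seg p1 u10 hns hnm hEn hal hκ k10 t0 t1 es
  obtain ⟨yd, -, d1, d2⟩ := corner_seg p1 u11 hns hnm hEn hal hκ k11 t0 t1 es
  have hspos : 0 < s := by
    have : (0:ℝ) < n.s := by exact_mod_cast hns
    have : 0 < rv n.s := by unfold rv; positivity
    linarith [hs.1]
  have eF := w.lin s 1 0
  simp only [one_mul, add_zero] at eF
  have eF' : h * s + o = m00 * (rv h0 * s + rv o00) + m01 * (rv h0 * s + rv o01) +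
      m10 * (rv h1 * s + rv o10) + m11 * (rv h1 * s + rv o11) := by linarith
  set B := brV (rv c.al) (rv c.κ) (rv c.E) n.lin s with hB
  have hP : 0 < 3141592 / 1000000 * s := mul_pos (by norm_num) hspos
  have g1 := combine4 w.n00 w.n01 w.n10 w.n11 w.sum1 hP a1 b1 c1 d1
  have g2 := combine4 w.n00 w.n01 w.n10 w.n11 w.sum1 (pow_pos bpos 2) a2 b2 c2 d2
  rw [← eF'] at g1 g2
  set y := m00 * ((1 - τ) * rv n.q00 + τ * rv m.q00) + m01 * ((1 - τ) * rv n.q01 + τ * rv m.q01) +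
    m10 * ((1 - τ) * rv n.q10 + τ * rv m.q10) + m11 * ((1 - τ) * rv n.q11 + τ * rv m.q11) with hy
  have ey : m00 * (rv n.q00 + (rv m.q00 - rv n.q00) / (rv m.s - rv n.s) * (s - rv n.s)) +
     m01 * (rv n.q01 + (rv m.q01 - rv n.q01) / (rv m.s - rv n.s) * (s - rv n.s)) +
     m10 * (rv n.q10 + (rv m.q10 - rv n.q10) / (rv m.s - rv n.s) * (s - rv n.s)) +
     m11 * (rv n.q11 + (rv m.q11 - rv n.q11) / (rv m.s - rv n.s) * (s - rv n.s)) = y := by
    rw [hy, hτ]; ring
  rw [ey]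
  have ypos : 0 < y := by
    have hm := w.sum1
    rcases le_or_gt y 0 with hle | hgt
    · have := mul_nonneg w.n00 ya.le
      have := mul_nonneg w.n01 yb.le
      have := mul_nonneg w.n10 yc.le
      have := mul_nonneg w.n11 yd.le
      by_contra
      have z0 : m00 = 0 := by
        by_contra hne
        have := mul_pos (lt_of_le_of_ne w.n00 (Ne.symm hne)) ya
        linarith
      have z1 : m01 = 0 := by
        by_contra hne
        have := mul_pos (lt_of_le_of_ne w.n01 (Ne.symm hne)) yb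
        linarith
      have z2 : m10 = 0 := by
        by_contra hne
        have := mul_pos (lt_of_le_of_ne w.n10 (Ne.symm hne)) yc
        linarith
      have := mul_pos (show 0 < m11 by linarith) yd
      linarith
    · exact hgt
  set L := ellE (rv c.al) (rv c.κ) (rv c.E) s with hL
  have hBle : B ≤ max 1 (rv c.al + rv c.κ * (s - rv c.E)) := by
    rw [hB]; cases n.lin <;> simp [brV]
  have hps : 3141592 / 1000000 * s ≤ Real.pi * s :=
    mul_le_mul_of_nonneg_right pi_bounds.1.le hspos.le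
  have hLpos : 0 < L :=
    lt_min (Real.sqrt_pos.2 (by linarith)) (bpos.trans_le hBle)
  have g3 : y ^ 2 + (h * s + o) ^ 2 / L ^ 2 ≤ 1 := by
    rcases min_cases √(Real.pi * s) (max 1 (rv c.al + rv c.κ * (s - rv c.E))) with ⟨e, -⟩ | ⟨e, -⟩
    · have : 3141592 / 1000000 * s ≤ L ^ 2 := by
        rw [hL, ellE, e, Real.sq_sqrt (by linarith)]; exact hps
      linarith [div_le_div_of_nonneg_left (sq_nonneg (h * s + o)) hP this]
    · have : B ^ 2 ≤ L ^ 2 := by
        rw [hL, ellE, e]; exact pow_le_pow_left₀ bpos.le hBle 2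
      linarith [div_le_div_of_nonneg_left (sq_nonneg (h * s + o)) (pow_pos bpos 2) this]
  constructor
  · by_contra hcon
    rw [not_lt] at hcon
    have : 1 ≤ (h * s + o) ^ 2 / L ^ 2 := by
      rw [le_div_iff₀ (pow_pos hLpos 2), one_mul]
      exact pow_le_pow_left₀ hLpos.le hcon 2
    linarith [pow_pos ypos 2]
  · rw [bfun_eq_sqrt hLpos]
    apply Real.le_sqrt_of_sq_le
    rw [div_pow]
    linarith

lemma chord_integral {u v q r : ℝ} (huv : u < v) :
    (∫ s in u..v, (q + (r - q) / (v - u) * (s - u))) = (v - u) * (q + r) / 2 := by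
  have hd : v - u ≠ 0 := by linarith
  rw [intervalIntegral.integral_add intervalIntegrable_const
      (Continuous.intervalIntegrable (by fun_prop) _ _), intervalIntegral.integral_const,
      intervalIntegral.integral_const_mul,
      intervalIntegral.integral_comp_sub_right (fun x => x), integral_id, smul_eq_mul]
  field_simp
  ring

lemma chain_bound (w : Wts h0 h1 o00 o01 o10 o11 h o m00 m01 m10 m11) (p0 : 0 < h0) (p1 : 0 < h1)
    (u00 : 0 ≤ o00) (u01 : 0 ≤ o01) (u10 : 0 ≤ o10) (u11 : 0 ≤ o11) (hal : 0 ≤ c.al)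
    (hκ : 0 ≤ c.κ) : ∀ (l : List Node) (n : Node),
    chainOK c h0 h1 o00 o01 o10 o11 (n :: l) = true →
    n.s ≤ lastS (n :: l) ∧
    wsum m00 m01 m10 m11 (n :: l) ≤
      (∫ s in rv n.s..rv (lastS (n :: l)), bfun (h * s + o) (ellE (rv c.al) (rv c.κ) (rv c.E) s)) ∧
    (l ≠ [] → ∀ s ∈ Icc (rv n.s) (rv (lastS (n :: l))),
      h * s + o < ellE (rv c.al) (rv c.κ) (rv c.E) s) := by
  intro l
  induction l with
  | nil => intro n _; simp [wsum, trap, lastS]
  | cons m rest ih =>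
    intro n hk
    simp only [chainOK, Bool.and_eq_true, Bool.or_eq_true, Bool.not_eq_true', decide_eq_true_eq]
      at hk
    obtain ⟨⟨⟨⟨⟨⟨⟨hns, hnm⟩, hE⟩, k00⟩, k01⟩, k10⟩, k11⟩, hrest⟩ := hk
    obtain ⟨hle, hsum, hlt⟩ := ih m hrest
    have hEn : n.lin = true → c.E ≤ n.s := fun hl => hE.resolve_left (by simp [hl])
    have hb := fun {s : ℝ} (hs : s ∈ Icc (rv n.s) (rv m.s)) =>
      seg_bound w p0 p1 u00 u01 u10 u11 hal hκ hns hnm hEn k00 k01 k10 k11 hs
    have hnm' : rv n.s < rv m.s := by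
      have : (n.s : ℝ) < m.s := by exact_mod_cast hnm
      unfold rv; linarith
    have eL : lastS (n :: m :: rest) = lastS (m :: rest) := rfl
    rw [eL]
    refine ⟨hnm.le.trans hle, ?_, ?_⟩
    · have hii : ∀ a b : ℝ, IntervalIntegrable
          (fun s => bfun (h * s + o) (ellE (rv c.al) (rv c.κ) (rv c.E) s)) volume a b :=
        fun a b => intervalIntegrable_bfun (by fun_prop) (continuous_ellE _ _ _).measurable a b
      rw [← integral_add_adjacent_intervals (hii (rv n.s) (rv m.s)) (hii (rv m.s) _)]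
      have hm := intervalIntegral.integral_mono_on hnm'.le
        (Continuous.intervalIntegrable (μ := volume) (by fun_prop) _ _) (hii (rv n.s) (rv m.s))
        (fun s hs => (hb hs).2)
      rw [intervalIntegral.integral_add (Continuous.intervalIntegrable (by fun_prop) _ _)
          (Continuous.intervalIntegrable (by fun_prop) _ _),
        intervalIntegral.integral_add (Continuous.intervalIntegrable (by fun_prop) _ _)
          (Continuous.intervalIntegrable (by fun_prop) _ _),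
        intervalIntegral.integral_add (Continuous.intervalIntegrable (by fun_prop) _ _)
          (Continuous.intervalIntegrable (by fun_prop) _ _),
        intervalIntegral.integral_const_mul, intervalIntegral.integral_const_mul,
        intervalIntegral.integral_const_mul, intervalIntegral.integral_const_mul,
        chord_integral hnm', chord_integral hnm', chord_integral hnm', chord_integral hnm'] at hm
      simp only [wsum, trap, rv] at hsum hm ⊢
      push_cast
      linarith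
    · intro _ s hs
      rcases le_or_gt s (rv m.s) with hsm | hsm
      · exact (hb ⟨hs.1, hsm⟩).1
      · refine hlt ?_ s ⟨hsm.le, hs.2⟩
        intro hnil
        subst hnil
        exact absurd hs.2 (not_le.2 hsm)

lemma leaf_sound {W c3 : ℤ} {e cc : ℝ} (hW : 0 < W)
    (w : Wts h0 h1 o00 o01 o10 o11 h o m00 m01 m10 m11) (p0 : 0 < h0) (p1 : 0 < h1)
    (u00 : 0 ≤ o00) (u01 : 0 ≤ o01) (u10 : 0 ≤ o10) (u11 : 0 ≤ o11)
    (hk : leafOK W c3 h0 h1 o00 o01 o10 o11 c = true) (hh : 0 ≤ h) (hh0 : rv h0 ≤ h)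
    (hh1 : h ≤ rv h1) (X : Ctx (rv W) (rv c3) h o cc e) : False := by
  simp only [leafOK, Bool.and_eq_true, decide_eq_true_eq] at hk
  obtain ⟨⟨⟨⟨⟨⟨⟨⟨⟨⟨hcap, hrad⟩, hwid⟩, hphi⟩, hchain⟩, hfirst⟩, hlast⟩, t00⟩, t01⟩, t10⟩, t11⟩ := hk
  have hc := cap_sound w hcap hh hh0 X.cap X.c_lt X.sum_le
  obtain ⟨ta, -, haV, hae, htr, hfat⟩ := X.trace
  have haR := rad_sound hrad hh hh1 hc X.c_nonneg haV hae X.c_lt
  have hW' : 0 < rv W := by
    have : (0:ℝ) < W := by exact_mod_cast hW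
    unfold rv; positivity
  have heE : e ≤ rv c.E := by
    simp only [widthOK, Bool.and_eq_true, Bool.or_eq_true, decide_eq_true_eq] at hwid
    rcases hwid with hA | ⟨⟨h1R, hden⟩, hE⟩
    · have := (Int.cast_le (R := ℝ)).2 hA
      push_cast at this
      have hAR : rv c.R ≤ rv c.E * rv W := by unfold rv; linarith
      refine le_of_mul_le_mul_left ?_ hW'
      linarith [hfat.trans_le haR]
    · obtain ⟨hlin, -⟩ := width_linear hW h1R hh hh1 hc X.e_pos htr hfat haR
      have hd := (Int.cast_lt (R := ℝ)).2 hden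
      have hE' := (Int.cast_le (R := ℝ)).2 hE
      push_cast at hd hE'
      have hpos : 0 < 3141592 / 4000000 - rv h1 * rv W := by unfold rv; linarith
      refine le_of_mul_le_mul_right (hlin.trans ?_) hpos
      unfold rv; linarith
  simp only [phiOK, Bool.and_eq_true, decide_eq_true_eq] at hphi
  obtain ⟨⟨⟨k0, k1⟩, hal⟩, hphi⟩ := hphi
  have k0' : 0 ≤ rv c.κ := by
    have : (0:ℝ) ≤ c.κ := by exact_mod_cast k0
    unfold rv; positivity
  have k1' : rv c.κ ≤ 1 := by
    have := (Int.cast_le (R := ℝ)).2 k1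
    push_cast at this
    unfold rv; linarith
  have hphi' : rv c.al ≤ phiK (rv c.κ) := by
    refine le_trans ?_ (phiK_ge k0' k1')
    have := (Int.cast_le (R := ℝ)).2 hphi
    push_cast at this
    unfold rv; linarith
  obtain ⟨a1, a0, -, ha1, ha0, he1, he0, hI1, hI2⟩ := X.axis _ _ _ k0' k1' hphi' heE
  rcases hnodes : c.nodes with - | ⟨n, l⟩
  · rw [hnodes] at hfirst; simp at hfirst
  rcases l with - | ⟨m, l⟩
  · rw [hnodes] at hfirst; simp at hfirst
  rw [hnodes] at hfirst hchain hlast t00 t01 t10 t11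
  simp only [decide_eq_true_eq] at hfirst
  obtain ⟨hle, hsum, hlt⟩ := chain_bound w p0 p1 u00 u01 u10 u11 hal k0 (m :: l) n hchain
  obtain ⟨-, hvl, hvu⟩ := pi_bounds
  set u := rv n.s
  set v := rv (lastS (n :: m :: l))
  have hu : u < 1 / Real.pi := by
    have := (Int.cast_le (R := ℝ)).2 hfirst
    push_cast at this
    have : u ≤ 318309 / 1000000 := by simp only [u, rv]; linarith
    linarith
  have hv : 1 / Real.pi < v := by
    have := (Int.cast_le (R := ℝ)).2 hlast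
    push_cast at this
    have : 318310 / 1000000 ≤ v := by simp only [v, rv]; linarith
    linarith
  have g1 : a1 ≤ u := by
    by_contra hcon
    exact absurd (hlt (by simp) a1 ⟨(not_le.1 hcon).le, by linarith⟩) (not_lt.2 he1)
  have g0 : v ≤ a0 := by
    by_contra hcon
    exact absurd (hlt (by simp) a0 ⟨by linarith, (not_le.1 hcon).le⟩) (not_lt.2 he0)
  have hmono := integral_mono_interval (μ := volume) g1 (by linarith) g0
    (f := fun s => bfun (h * s + o) (ellE (rv c.al) (rv c.κ) (rv c.E) s))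
    (Filter.Eventually.of_forall fun _ => bfun_nonneg _ _)
    (intervalIntegrable_bfun (by fun_prop) (continuous_ellE _ _ _).measurable _ _)
  have r00 := (Int.cast_lt (R := ℝ)).2 t00
  have r01 := (Int.cast_lt (R := ℝ)).2 t01
  have r10 := (Int.cast_lt (R := ℝ)).2 t10
  have r11 := (Int.cast_lt (R := ℝ)).2 t11
  set S00 := (trap Node.q00 (n :: m :: l) : ℝ)
  set S01 := (trap Node.q01 (n :: m :: l) : ℝ)
  set S10 := (trap Node.q10 (n :: m :: l) : ℝ)
  set S11 := (trap Node.q11 (n :: m :: l) : ℝ)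
  have hS := w.sum1
  have strict : ∀ {T00 T01 T10 T11 : ℝ}, T00 < S00 → T01 < S01 → T10 < S10 → T11 < S11 →
      m00 * T00 + m01 * T01 + m10 * T10 + m11 * T11 <
        m00 * S00 + m01 * S01 + m10 * S10 + m11 * S11 := by
    intro T00 T01 T10 T11 q00 q01 q10 q11
    have b0 := mul_le_mul_of_nonneg_left q00.le w.n00
    have b1 := mul_le_mul_of_nonneg_left q01.le w.n01
    have b2 := mul_le_mul_of_nonneg_left q10.le w.n10
    have b3 := mul_le_mul_of_nonneg_left q11.le w.n11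
    rcases w.n00.lt_or_eq with hp | hp
    · linarith [mul_lt_mul_of_pos_left q00 hp]
    rcases w.n01.lt_or_eq with hp1 | hp1
    · linarith [mul_lt_mul_of_pos_left q01 hp1]
    rcases w.n10.lt_or_eq with hp2 | hp2
    · linarith [mul_lt_mul_of_pos_left q10 hp2]
    linarith [mul_lt_mul_of_pos_left q11 (show 0 < m11 by linarith)]
  have hh2 := hv_bounds hh
  rw [wsum] at hsum
  cases hhalf : c.half with
  | false =>
    simp only [target, hhalf, Bool.false_eq_true, if_false] at r00 r01 r10 r11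
    push_cast at r00 r01 r10 r11
    have key := strict r00 r01 r10 r11
    have e := w.lin (-(318309 / 1000000)) (-1) 1
    simp only [rv] at e
    linarith
  | true =>
    simp only [target, hhalf, if_true] at r00 r01 r10 r11
    push_cast at r00 r01 r10 r11
    have key := strict r00 r01 r10 r11
    have e := w.lin (318310 / 1000000) (-1) (rv c.C)
    simp only [rv] at e hc
    linarith

end chain

/-- The checker is sound. -/
theorem tree_sound {skew : Bool} {W c3 : ℤ} (hW : 0 < W) : ∀ (t : Tree) (h0 h1 p0 p1 : ℤ),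
    treeOK skew W c3 t h0 h1 p0 p1 = true → ∀ h o c e : ℝ, rv h0 ≤ h → h ≤ rv h1 →
    rv p0 ≤ (if skew then o + h / 2 else o) → (if skew then o + h / 2 else o) ≤ rv p1 →
    Ctx (rv W) (rv c3) h o c e → False := by
  intro t
  induction t with
  | out =>
    intro h0 h1 p0 p1 hk h o c e a b a' b' X
    simp only [treeOK, Bool.and_eq_true] at hk
    obtain ⟨m00, m01, m10, m11, w⟩ := exists_wts hk.1 a b a' b'
    simp only [boxOK, Bool.and_eq_true, decide_eq_true_eq] at hk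
    have : (0:ℝ) < h0 := by exact_mod_cast hk.1.1.1.1.1.1
    refine out_sound w hk.2 ?_ X.o_lt
    exact le_trans (by unfold rv; positivity) a
  | empty C R =>
    intro h0 h1 p0 p1 hk h o c e a b a' b' X
    simp only [treeOK, Bool.and_eq_true] at hk
    obtain ⟨m00, m01, m10, m11, w⟩ := exists_wts hk.1 a b a' b'
    simp only [boxOK, Bool.and_eq_true, decide_eq_true_eq] at hk
    have : (0:ℝ) < h0 := by exact_mod_cast hk.1.1.1.1.1.1
    exact empty_sound hW w hk.2 (le_trans (by unfold rv; positivity) a) a b X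
  | leaf cert =>
    intro h0 h1 p0 p1 hk h o c e a b a' b' X
    simp only [treeOK, Bool.and_eq_true] at hk
    obtain ⟨m00, m01, m10, m11, w⟩ := exists_wts hk.1 a b a' b'
    have hb := hk.1
    simp only [boxOK, Bool.and_eq_true, decide_eq_true_eq] at hb
    obtain ⟨⟨⟨⟨⟨hpos, hlt⟩, hp⟩, -⟩, u0⟩, u1⟩ := hb
    have mono : ∀ x, oOf skew x p0 ≤ oOf skew x p1 := by
      intro x; unfold oOf; split_ifs <;> linarith
    have : (0:ℝ) < h0 := by exact_mod_cast hpos
    exact leaf_sound hW w hpos (hpos.trans hlt) u0 (u0.trans (mono h0)) u1 (u1.trans (mono h1))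
      hk.2 (le_trans (by unfold rv; positivity) a) a b X
  | splitH x l r ihl ihr =>
    intro h0 h1 p0 p1 hk h o c e a b a' b' X
    simp only [treeOK, Bool.and_eq_true] at hk
    rcases le_or_gt h (rv x) with hx | hx
    · exact ihl h0 x p0 p1 hk.1 h o c e a hx a' b' X
    · exact ihr x h1 p0 p1 hk.2 h o c e hx.le b a' b' X
  | splitP x l r ihl ihr =>
    intro h0 h1 p0 p1 hk h o c e a b a' b' X
    simp only [treeOK, Bool.and_eq_true] at hk
    rcases le_or_gt (if skew then o + h / 2 else o) (rv x) with hx | hx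
    · exact ihl h0 h1 p0 x hk.1 h o c e a b a' hx X
    · exact ihr h0 h1 x p1 hk.2 h o c e a b hx.le b' X

end Vale.Agent.P232.SlabHigh
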