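import Vale.Agent.P232.KinkAux

/-! # P232: checker for the thin-trace cells at the slab kink (all numbers in millionths) -/

namespace Vale.Agent.P232.SlabHigh

open MeasureTheory Set

/-- One node: abscissa and the two weights at both ends of the slope cell. -/
structure ZNode where
  s : ℤ
  σ0 : ℤ
  σ1 : ℤ
  β0 : ℤ
  β1 : ℤ

/-- One slope cell. -/
structure ZCell where
  h0 : ℤ
  h1 : ℤ
  κ : ℤ
  nodes : List ZNode

def zPointOK (W κ h s σ β : ℤ) : Bool :=
  decide (0 < σ) && decide (κ ≤ σ) && decide (0 ≤ β) && decide (σ ^ 2 + β ^ 2 ≤ 1000000 ^ 2)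
    && decide (30 * σ ^ 3 * (h * s - κ * (s - W)) ≤
      1000000 * (30 * σ ^ 4 - 5 * κ ^ 2 * σ ^ 2 - 3 * κ ^ 4))
    && decide (3141592 * β ^ 2 + h ^ 2 * s ≤ 3141592 * 1000000 ^ 2)
    && decide (3141592 * (1000000 - s) * β ^ 2 + h ^ 2 * s ^ 2 ≤
      3141592 * (1000000 - s) * 1000000 ^ 2)

def zNodeOK (W : ℤ) (c : ZCell) (n : ZNode) : Bool :=
  decide (0 ≤ n.s) && decide (n.s < 1000000) && zPointOK W c.κ c.h0 n.s n.σ0 n.β0
    && zPointOK W c.κ c.h1 n.s n.σ1 n.β1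

def zChainOK (W : ℤ) (c : ZCell) : List ZNode → Bool
  | [] => false
  | [n] => zNodeOK W c n
  | n :: m :: rest => zNodeOK W c n && decide (n.s < m.s) && zChainOK W c (m :: rest)

def zLast : List ZNode → ℤ
  | [] => 0
  | [n] => n.s
  | _ :: m :: rest => zLast (m :: rest)

def zTrap (f : ZNode → ℤ) : List ZNode → ℤ
  | [] => 0
  | [_] => 0
  | n :: m :: rest => (m.s - n.s) * (f n + f m) + zTrap f (m :: rest)

def zCellOK (W : ℤ) (c : ZCell) : Bool :=
  decide (0 < c.h0) && decide (c.h0 < c.h1) && decide (0 ≤ c.κ) && zChainOK W c c.nodes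
    && (match c.nodes with
      | n :: _ => decide (n.s = 0)
      | [] => false)
    && decide (c.h1 ^ 2 * zLast c.nodes ^ 2 ≤
      3141592 * 1000000 ^ 2 * (1000000 - zLast c.nodes))
    && decide (2 * 1000000 ^ 2 - 2 * c.h0 * 318309 ≤ zTrap ZNode.β0 c.nodes)
    && decide (2 * 1000000 ^ 2 - 2 * c.h1 * 318309 ≤ zTrap ZNode.β1 c.nodes)

/-- The cells cover the slope band from `ha` to `hb`. -/
def zBandOK (W : ℤ) : List ZCell → ℤ → ℤ → Bool
  | [], _, _ => false
  | [c], ha, hb => zCellOK W c && decide (c.h0 ≤ ha) && decide (hb ≤ c.h1)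
  | c :: d :: rest, ha, hb =>
    zCellOK W c && decide (c.h0 ≤ ha) && zBandOK W (d :: rest) c.h1 hb

/-! ## Soundness -/

/-- The polynomial lower bound for `w * phiK (κ / w)`. -/
noncomputable def gLow (κ w : ℝ) : ℝ := w - κ ^ 2 / (6 * w) - κ ^ 4 / (10 * w ^ 3)

/-- The conditions at one point of slope and level. -/
def ZPt (W κ h s σ b : ℝ) : Prop :=
  0 < σ ∧ κ ≤ σ ∧ 0 ≤ b ∧ σ ^ 2 + b ^ 2 ≤ 1 ∧ h * s - κ * (s - W) ≤ gLow κ σ ∧
    h ^ 2 * s ≤ 3141592 / 1000000 * (1 - b ^ 2) ∧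
    h ^ 2 * (s ^ 2 / (1 - s)) ≤ 3141592 / 1000000 * (1 - b ^ 2)

lemma comb_pos {t x y : ℝ} (t0 : 0 ≤ t) (t1 : t ≤ 1) (hx : 0 < x) (hy : 0 < y) :
    0 < (1 - t) * x + t * y := by
  rcases t0.eq_or_lt with e | e
  · rw [← e]; linarith
  · linarith [mul_pos e hy, mul_nonneg (sub_nonneg.2 t1) hx.le]

lemma comb_sq {t x y : ℝ} (t0 : 0 ≤ t) (t1 : t ≤ 1) :
    ((1 - t) * x + t * y) ^ 2 ≤ (1 - t) * x ^ 2 + t * y ^ 2 := by
  linarith [mul_nonneg (mul_nonneg t0 (sub_nonneg.2 t1)) (sq_nonneg (x - y)),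
    show ((1 - t) * x + t * y) ^ 2 + t * (1 - t) * (x - y) ^ 2 = (1 - t) * x ^ 2 + t * y ^ 2 by
      ring]

lemma comb_inv {t x y : ℝ} (t0 : 0 ≤ t) (t1 : t ≤ 1) (hx : 0 < x) (hy : 0 < y) :
    1 / ((1 - t) * x + t * y) ≤ (1 - t) * (1 / x) + t * (1 / y) := by
  have hm := comb_pos t0 t1 hx hy
  have key : (1 - t) * (1 / x) + t * (1 / y) - 1 / ((1 - t) * x + t * y) =
      t * (1 - t) * (x - y) ^ 2 / (x * y * ((1 - t) * x + t * y)) := by
    field_simp
    ring
  have := div_nonneg (mul_nonneg (mul_nonneg t0 (sub_nonneg.2 t1)) (sq_nonneg (x - y)))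
    (mul_nonneg (mul_nonneg hx.le hy.le) hm.le)
  linarith

lemma gLow_concave {κ t x y : ℝ} (t0 : 0 ≤ t) (t1 : t ≤ 1) (hx : 0 < x) (hy : 0 < y) :
    (1 - t) * gLow κ x + t * gLow κ y ≤ gLow κ ((1 - t) * x + t * y) := by
  have hm := comb_pos t0 t1 hx hy
  have h1 := comb_inv t0 t1 hx hy
  have hp : 0 ≤ 1 / x := by positivity
  have hq : 0 ≤ 1 / y := by positivity
  have h3 : (1 / ((1 - t) * x + t * y)) ^ 3 ≤ (1 - t) * (1 / x) ^ 3 + t * (1 / y) ^ 3 := by
    refine (pow_le_pow_left₀ (by positivity) h1 3).trans ?_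
    generalize 1 / x = p at hp ⊢
    generalize 1 / y = q at hq ⊢
    linarith [mul_nonneg (mul_nonneg (mul_nonneg t0 (sub_nonneg.2 t1)) (sq_nonneg (p - q)))
      (add_nonneg (mul_nonneg (show 0 ≤ 2 - t by linarith) hp)
        (mul_nonneg (show 0 ≤ 1 + t by linarith) hq))]
  have e : ∀ w : ℝ, gLow κ w = w - κ ^ 2 / 6 * (1 / w) - κ ^ 4 / 10 * (1 / w) ^ 3 := fun w => by
    unfold gLow
    ring
  simp only [e]
  linarith [mul_le_mul_of_nonneg_left h1 (show 0 ≤ κ ^ 2 / 6 by positivity),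
    mul_le_mul_of_nonneg_left h3 (show 0 ≤ κ ^ 4 / 10 by positivity)]

lemma gLow_mono {κ x y : ℝ} (hx : 0 < x) (hxy : x ≤ y) : gLow κ x ≤ gLow κ y := by
  unfold gLow
  have h1 : κ ^ 2 / (6 * y) ≤ κ ^ 2 / (6 * x) :=
    div_le_div_of_nonneg_left (sq_nonneg κ) (by positivity) (by linarith)
  have h2 : κ ^ 4 / (10 * y ^ 3) ≤ κ ^ 4 / (10 * x ^ 3) :=
    div_le_div_of_nonneg_left (by positivity) (by positivity)
      (mul_le_mul_of_nonneg_left (pow_le_pow_left₀ hx.le hxy 3) (by norm_num))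
  linarith

lemma ZPt.comb {W κ t h h' H s s' S σ σ' b b' : ℝ} (t0 : 0 ≤ t) (t1 : t ≤ 1)
    (p : ZPt W κ h s σ b) (q : ZPt W κ h' s' σ' b')
    (e1 : H * S - κ * (S - W) =
      (1 - t) * (h * s - κ * (s - W)) + t * (h' * s' - κ * (s' - W)))
    (e2 : H ^ 2 * S ≤ (1 - t) * (h ^ 2 * s) + t * (h' ^ 2 * s'))
    (e3 : H ^ 2 * (S ^ 2 / (1 - S)) ≤
      (1 - t) * (h ^ 2 * (s ^ 2 / (1 - s))) + t * (h' ^ 2 * (s' ^ 2 / (1 - s')))) :
    ZPt W κ H S ((1 - t) * σ + t * σ') ((1 - t) * b + t * b') := by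
  obtain ⟨p1, p2, p3, p4, p5, p6, p7⟩ := p
  obtain ⟨q1, q2, q3, q4, q5, q6, q7⟩ := q
  have u := sub_nonneg.2 t1
  have hb := comb_sq (x := b) (y := b') t0 t1
  refine ⟨comb_pos t0 t1 p1 q1, ?_, by positivity, ?_, ?_, ?_, ?_⟩
  · linarith [mul_le_mul_of_nonneg_left p2 u, mul_le_mul_of_nonneg_left q2 t0]
  · linarith [comb_sq (x := σ) (y := σ') t0 t1, mul_le_mul_of_nonneg_left p4 u,
      mul_le_mul_of_nonneg_left q4 t0]
  · refine le_trans ?_ (gLow_concave t0 t1 p1 q1)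
    linarith [mul_le_mul_of_nonneg_left p5 u, mul_le_mul_of_nonneg_left q5 t0]
  · linarith [mul_le_mul_of_nonneg_left p6 u, mul_le_mul_of_nonneg_left q6 t0]
  · linarith [mul_le_mul_of_nonneg_left p7 u, mul_le_mul_of_nonneg_left q7 t0]

lemma ZPt.combH {W κ t h h' s σ σ' b b' : ℝ} (t0 : 0 ≤ t) (t1 : t ≤ 1) (hs : 0 ≤ s) (hs1 : s < 1)
    (p : ZPt W κ h s σ b) (q : ZPt W κ h' s σ' b') :
    ZPt W κ ((1 - t) * h + t * h') s ((1 - t) * σ + t * σ') ((1 - t) * b + t * b') := by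
  have hq := comb_sq (x := h) (y := h') t0 t1
  refine p.comb t0 t1 q (by ring) ?_ ?_
  · linarith [mul_le_mul_of_nonneg_right hq hs]
  · linarith [mul_le_mul_of_nonneg_right hq (div_nonneg (sq_nonneg s) (sub_nonneg.2 hs1.le))]

lemma ZPt.combS {W κ t h s s' σ σ' b b' : ℝ} (t0 : 0 ≤ t) (t1 : t ≤ 1) (hs1 : s < 1)
    (hs1' : s' < 1) (p : ZPt W κ h s σ b) (q : ZPt W κ h s' σ' b') :
    ZPt W κ h ((1 - t) * s + t * s') ((1 - t) * σ + t * σ') ((1 - t) * b + t * b') := by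
  refine p.comb t0 t1 q (by ring) (le_of_eq (by ring)) ?_
  have e : ∀ x : ℝ, x < 1 → x ^ 2 / (1 - x) = 1 / (1 - x) - 1 - x := fun x hx => by
    have : 1 - x ≠ 0 := (sub_pos.2 hx).ne'
    field_simp
    ring
  have hS : (1 - t) * s + t * s' < 1 := by
    linarith [comb_pos t0 t1 (sub_pos.2 hs1) (sub_pos.2 hs1')]
  have hi := comb_inv t0 t1 (sub_pos.2 hs1) (sub_pos.2 hs1')
  rw [show (1 - t) * (1 - s) + t * (1 - s') = 1 - ((1 - t) * s + t * s') by ring] at hi
  rw [e _ hS, e _ hs1, e _ hs1']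
  linarith [mul_le_mul_of_nonneg_left hi (sq_nonneg h)]

/-- A number in millionths. -/
noncomputable def mv (x : ℤ) : ℝ := (x : ℝ) / 1000000

lemma point_real {W κ h s σ β : ℤ} (hs1 : s < 1000000) (hk : zPointOK W κ h s σ β = true) :
    ZPt (mv W) (mv κ) (mv h) (mv s) (mv σ) (mv β) := by
  simp only [zPointOK, Bool.and_eq_true, decide_eq_true_eq] at hk
  obtain ⟨⟨⟨⟨⟨⟨c1, c2⟩, c3⟩, c4⟩, c5⟩, c6⟩, c7⟩ := hk
  have s1 : (s : ℝ) < 1000000 := by exact_mod_cast hs1
  have r1 : (0 : ℝ) < σ := by exact_mod_cast c1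
  have r2 : (κ : ℝ) ≤ σ := by exact_mod_cast c2
  have r3 : (0 : ℝ) ≤ β := by exact_mod_cast c3
  have r4 := (Int.cast_le (R := ℝ)).2 c4
  have r5 := (Int.cast_le (R := ℝ)).2 c5
  have r6 := (Int.cast_le (R := ℝ)).2 c6
  have r7 := (Int.cast_le (R := ℝ)).2 c7
  push_cast at r4 r5 r6 r7
  unfold ZPt mv gLow
  refine ⟨by positivity, by linarith, by positivity, ?_, ?_, ?_, ?_⟩
  · linarith
  · rw [show (σ : ℝ) / 1000000 - ((κ : ℝ) / 1000000) ^ 2 / (6 * ((σ : ℝ) / 1000000))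
      - ((κ : ℝ) / 1000000) ^ 4 / (10 * ((σ : ℝ) / 1000000) ^ 3) =
      (30 * (σ : ℝ) ^ 4 - 5 * (κ : ℝ) ^ 2 * (σ : ℝ) ^ 2 - 3 * (κ : ℝ) ^ 4) /
        (30 * 1000000 * (σ : ℝ) ^ 3) by field_simp; ring, le_div_iff₀ (by positivity)]
    linarith
  · linarith
  · have hd : (0 : ℝ) < 1 - (s : ℝ) / 1000000 := by linarith
    rw [← mul_div_assoc, div_le_iff₀ hd]
    linarith

/-- What the calibration needs at one level. -/
def ZLevel (W κ h s b : ℝ) : Prop :=
  0 < √(1 - b ^ 2) ∧ κ ≤ √(1 - b ^ 2) ∧ h * s ≤ √(1 - b ^ 2) * √(Real.pi * s) ∧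
    h * s ≤ √(1 - b ^ 2) * √(Real.pi * (1 - s)) ∧
    h * s - κ * (s - W) ≤ gLow κ √(1 - b ^ 2)

lemma ZPt.level {W κ h s σ b : ℝ} (hs : 0 ≤ s) (hs1 : s < 1)
    (p : ZPt W κ h s σ b) : ZLevel W κ h s b := by
  obtain ⟨p1, p2, -, p4, p5, p6, p7⟩ := p
  have hpi : (3141592 : ℝ) / 1000000 ≤ Real.pi := by
    have := Real.pi_gt_d6; norm_num at this ⊢; linarith
  have hb : 0 ≤ 1 - b ^ 2 := by linarith [sq_nonneg σ]
  have hσ : σ ≤ √(1 - b ^ 2) := Real.le_sqrt_of_sq_le (by linarith)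
  refine ⟨p1.trans_le hσ, p2.trans hσ, ?_, ?_, p5.trans (gLow_mono p1 hσ)⟩
  · rw [← Real.sqrt_mul hb]
    refine Real.le_sqrt_of_sq_le ?_
    linarith [mul_le_mul_of_nonneg_left p6 hs,
      mul_le_mul_of_nonneg_left hpi (mul_nonneg hs hb)]
  · rw [← Real.sqrt_mul hb]
    refine Real.le_sqrt_of_sq_le ?_
    rw [← mul_div_assoc, div_le_iff₀ (sub_pos.2 hs1)] at p7
    linarith [mul_le_mul_of_nonneg_left hpi (mul_nonneg (sub_nonneg.2 hs1.le) hb)]

/-- The interpolated weight along a chain of nodes. -/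
lemma chain_weight {W h0 h1 κ : ℤ} {ns : List ZNode} {t : ℝ} (t0 : 0 ≤ t) (t1 : t ≤ 1)
    (nds : List ZNode) (n : ZNode)
    (hk : zChainOK W ⟨h0, h1, κ, ns⟩ (n :: nds) = true) :
    0 ≤ mv n.s ∧ mv n.s ≤ mv (zLast (n :: nds)) ∧ mv (zLast (n :: nds)) < 1 ∧
    ∃ β : ℝ → ℝ, Measurable β ∧ (∀ s, 0 ≤ β s ∧ β s ≤ 1) ∧
      (∀ s, mv n.s ≤ s → s ≤ mv (zLast (n :: nds)) →
        ZLevel (mv W) (mv κ) ((1 - t) * mv h0 + t * mv h1) s (β s)) ∧
      ((1 - t) * (zTrap ZNode.β0 (n :: nds) : ℝ) + t * (zTrap ZNode.β1 (n :: nds) : ℝ))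
        / (2 * 1000000 ^ 2) ≤ ∫ s in mv n.s..mv (zLast (n :: nds)), β s := by
  induction nds generalizing n with
  | nil =>
    simp only [zChainOK, zNodeOK, Bool.and_eq_true, decide_eq_true_eq] at hk
    obtain ⟨⟨⟨a, b⟩, c⟩, d⟩ := hk
    have a' : (0 : ℝ) ≤ n.s := by exact_mod_cast a
    have b' : (n.s : ℝ) < 1000000 := by exact_mod_cast b
    have hn0 : 0 ≤ mv n.s := by unfold mv; positivity
    have hn1 : mv n.s < 1 := by unfold mv; linarith
    refine ⟨hn0, le_rfl, hn1, fun _ => max 0 (min 1 ((1 - t) * mv n.β0 + t * mv n.β1)),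
      measurable_const, fun s => ⟨le_max_left _ _, max_le zero_le_one (min_le_left _ _)⟩,
      fun s s0 s1 => ?_, by simp [zTrap, zLast]⟩
    have hp := (point_real b c).combH t0 t1 hn0 hn1 (point_real b d)
    obtain rfl : s = mv n.s := le_antisymm s1 s0
    have hb0 := hp.2.2.1
    have hb1 : (1 - t) * mv n.β0 + t * mv n.β1 ≤ 1 := by
      nlinarith [hp.2.2.2.1, sq_nonneg ((1 - t) * mv n.σ0 + t * mv n.σ1)]
    rw [min_eq_right hb1, max_eq_right hb0]
    exact hp.level hn0 hn1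
  | cons m rest ih =>
    simp only [zChainOK, zNodeOK, Bool.and_eq_true, decide_eq_true_eq] at hk
    obtain ⟨⟨⟨⟨⟨a, b⟩, c⟩, d⟩, hlt⟩, hrest⟩ := hk
    obtain ⟨hm0, hml, hl1, β', hmeas, hb, hlev, hint⟩ := ih m hrest
    have hm : zNodeOK W ⟨h0, h1, κ, ns⟩ m = true := by
      cases rest with
      | nil => simpa [zChainOK] using hrest
      | cons x y =>
        simp only [zChainOK, Bool.and_eq_true] at hrest
        exact hrest.1.1
    simp only [zNodeOK, Bool.and_eq_true, decide_eq_true_eq] at hm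
    obtain ⟨⟨⟨a', b'⟩, c'⟩, d'⟩ := hm
    have a'' : (0 : ℝ) ≤ n.s := by exact_mod_cast a
    have hlt' : (n.s : ℝ) < m.s := by exact_mod_cast hlt
    have hn0 : 0 ≤ mv n.s := by unfold mv; positivity
    have hnm : mv n.s < mv m.s := by unfold mv; linarith
    have hm1 : mv m.s < 1 := hml.trans_lt hl1
    have hn1 : mv n.s < 1 := hnm.trans hm1
    have hpn := (point_real b c).combH t0 t1 hn0 hn1 (point_real b d)
    have hpm := (point_real b' c').combH t0 t1 hm0 hm1 (point_real b' d')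
    set y := (1 - t) * mv n.β0 + t * mv n.β1 with hy
    set z := (1 - t) * mv m.β0 + t * mv m.β1 with hz
    set line : ℝ → ℝ := fun s => y + (z - y) / (mv m.s - mv n.s) * (s - mv n.s) with hline
    set β : ℝ → ℝ := fun s => if s ≤ mv m.s then max 0 (min 1 (line s)) else β' s with hβ
    have hβm : Measurable β := by
      refine Measurable.ite measurableSet_Iic ?_ hmeas
      fun_prop
    have hd : 0 < mv m.s - mv n.s := sub_pos.2 hnm
    have hseg : ∀ s, mv n.s ≤ s → s ≤ mv m.s →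
        ZLevel (mv W) (mv κ) ((1 - t) * mv h0 + t * mv h1) s (β s) ∧ β s = line s := by
      intro s s0 s1
      set τ := (s - mv n.s) / (mv m.s - mv n.s) with hτ
      have τ0 : 0 ≤ τ := div_nonneg (by linarith) hd.le
      have τ1 : τ ≤ 1 := (div_le_one hd).2 (by linarith)
      have es : (1 - τ) * mv n.s + τ * mv m.s = s := by rw [hτ]; field_simp; ring
      have el : line s = (1 - τ) * y + τ * z := by rw [hline, hτ]; ring
      have hp := hpn.combS τ0 τ1 hn1 hm1 hpm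
      rw [es, ← el] at hp
      have hl1 : line s ≤ 1 := by
        nlinarith [hp.2.2.2.1, hp.1]
      have he : β s = line s := by
        rw [hβ]
        simp only [if_pos s1, min_eq_right hl1, max_eq_right hp.2.2.1]
      rw [he]
      exact ⟨hp.level (hn0.trans s0) (s1.trans_lt hm1), rfl⟩
    have hib : ∀ u v, IntervalIntegrable β volume u v := fun u v =>
      (intervalIntegrable_const (c := (1 : ℝ))).mono_fun hβm.aestronglyMeasurable
        (Filter.Eventually.of_forall fun s => by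
          have : 0 ≤ β s ∧ β s ≤ 1 := by
            rw [hβ]
            simp only
            split_ifs
            · exact ⟨le_max_left _ _, max_le zero_le_one (min_le_left _ _)⟩
            · exact hb s
          simpa [Real.norm_eq_abs, abs_of_nonneg this.1] using this.2)
    refine ⟨hn0, hnm.le.trans hml, hl1, β, hβm, fun s => ?_, fun s s0 s1 => ?_, ?_⟩
    · rw [hβ]
      simp only
      split_ifs
      · exact ⟨le_max_left _ _, max_le zero_le_one (min_le_left _ _)⟩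
      · exact hb s
    · rcases le_or_gt s (mv m.s) with hs | hs
      · exact (hseg s s0 hs).1
      · have he : β s = β' s := by rw [hβ]; simp only [if_neg hs.not_ge]
        rw [he]
        exact hlev s hs.le s1
    · simp only [zTrap, zLast]
      rw [← intervalIntegral.integral_add_adjacent_intervals (hib (mv n.s) (mv m.s))
        (hib (mv m.s) (mv (zLast (m :: rest))))]
      have e1 : (∫ s in mv n.s..mv m.s, β s) = (mv m.s - mv n.s) * (y + z) / 2 := by
        rw [intervalIntegral.integral_congr (g := line) fun s hs => by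
          rw [uIcc_of_le hnm.le] at hs
          exact (hseg s hs.1 hs.2).2]
        simp only [hline]
        rw [intervalIntegral.integral_add intervalIntegrable_const
          (Continuous.intervalIntegrable (by fun_prop) _ _), intervalIntegral.integral_const,
          intervalIntegral.integral_const_mul,
          intervalIntegral.integral_comp_sub_right (fun x => x), integral_id, smul_eq_mul]
        field_simp
        ring
      have e2 : (∫ s in mv m.s..mv (zLast (m :: rest)), β s) =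
          ∫ s in mv m.s..mv (zLast (m :: rest)), β' s := by
        refine intervalIntegral.integral_congr_ae (Filter.Eventually.of_forall fun s hs => ?_)
        rw [uIoc_of_le hml] at hs
        rw [hβ]
        simp only [if_neg hs.1.not_ge]
      rw [e1, e2]
      refine le_trans (le_of_eq ?_) (add_le_add le_rfl hint)
      push_cast
      rw [hy, hz]
      unfold mv
      ring

/-- Soundness of one cell. -/
lemma cell_sound {W : ℤ} {c : ZCell} (hk : zCellOK W c = true) {h : ℝ} (h0 : mv c.h0 ≤ h)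
    (h1 : h ≤ mv c.h1) :
    0 ≤ mv c.κ ∧ ∃ (sl : ℝ) (β : ℝ → ℝ), 0 ≤ sl ∧ sl < 1 ∧
      (∀ A : ℝ, 0 ≤ A → Real.pi * (1 - A) ≤ (h * A) ^ 2 → sl ≤ A) ∧
      Measurable β ∧ (∀ s, 0 ≤ β s ∧ β s ≤ 1) ∧
      (∀ s, 0 < s → s ≤ sl → ZLevel (mv W) (mv c.κ) h s (β s)) ∧
      1 - h / Real.pi < ∫ s in (0 : ℝ)..sl, β s := by
  obtain ⟨k0, k1, κ, ns⟩ := c
  simp only [zCellOK, Bool.and_eq_true, decide_eq_true_eq] at hk
  obtain ⟨⟨⟨⟨⟨⟨⟨hp0, hlt⟩, hκ⟩, hch⟩, hfirst⟩, hcap⟩, g0⟩, g1⟩ := hk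
  simp only at h0 h1
  have hk0 : 0 < mv k0 := by
    have : (0 : ℝ) < k0 := by exact_mod_cast hp0
    unfold mv; positivity
  have hd : 0 < mv k1 - mv k0 := by
    have : (k0 : ℝ) < k1 := by exact_mod_cast hlt
    unfold mv; linarith
  have hκ0 : 0 ≤ mv κ := by
    have : (0 : ℝ) ≤ κ := by exact_mod_cast hκ
    unfold mv; positivity
  set t := (h - mv k0) / (mv k1 - mv k0) with ht
  have t0 : 0 ≤ t := div_nonneg (by linarith) hd.le
  have t1 : t ≤ 1 := (div_le_one hd).2 (by linarith)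
  have eh : (1 - t) * mv k0 + t * mv k1 = h := by rw [ht]; field_simp; ring
  have hh : 0 < h := hk0.trans_le h0
  cases ns with
  | nil => simp at hfirst
  | cons n rest =>
    simp only [decide_eq_true_eq] at hfirst
    obtain ⟨-, hle, hl1, β, hm, hb, hlev, hint⟩ :=
      chain_weight t0 t1 rest n hch
    have hz : mv n.s = 0 := by simp [mv, hfirst]
    rw [hz] at hle hint
    rw [eh] at hlev
    set sl := mv (zLast (n :: rest)) with hsl
    refine ⟨hκ0, sl, β, hle, hl1, fun A hA he => ?_, hm, hb,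
      fun s s0 s1 => hlev s (hz ▸ s0.le) s1, ?_⟩
    · by_contra hcon
      rw [not_le] at hcon
      have e1 : (h * A) ^ 2 ≤ (mv k1 * sl) ^ 2 :=
        pow_le_pow_left₀ (mul_nonneg hh.le hA) (mul_le_mul h1 hcon.le hA (hh.le.trans h1)) 2
      have e2 := (Int.cast_le (R := ℝ)).2 hcap
      push_cast at e2
      have hpi : (3141592 : ℝ) / 1000000 ≤ Real.pi := by
        have := Real.pi_gt_d6; norm_num at this ⊢; linarith
      have e3 : (mv k1 * sl) ^ 2 ≤ 3141592 / 1000000 * (1 - sl) := by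
        rw [hsl]; unfold mv; linarith
      have e4 := mul_le_mul_of_nonneg_right hpi (sub_nonneg.2 hl1.le)
      have e5 := mul_lt_mul_of_pos_left hcon Real.pi_pos
      linarith
    · refine lt_of_lt_of_le ?_ hint
      have g0' := (Int.cast_le (R := ℝ)).2 g0
      have g1' := (Int.cast_le (R := ℝ)).2 g1
      push_cast at g0' g1'
      have u0 := mul_le_mul_of_nonneg_left g0' (sub_nonneg.2 t1)
      have u1 := mul_le_mul_of_nonneg_left g1' t0
      have hlo : h * (318309 / 1000000) < h / Real.pi := by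
        rw [div_eq_mul_one_div h Real.pi]
        refine mul_lt_mul_of_pos_left ?_ hh
        rw [lt_div_iff₀ Real.pi_pos]
        have := Real.pi_lt_d6
        norm_num at this ⊢
        linarith
      rw [lt_div_iff₀ (by norm_num)]
      unfold mv at eh
      linarith

/-- Soundness of a band. -/
lemma band_sound {W : ℤ} : ∀ (cs : List ZCell) (ha hb : ℤ), zBandOK W cs ha hb = true →
    ∀ h : ℝ, mv ha ≤ h → h ≤ mv hb → ∃ c, zCellOK W c = true ∧ mv c.h0 ≤ h ∧ h ≤ mv c.h1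
  | [], ha, hb, hk => by simp [zBandOK] at hk
  | [c], ha, hb, hk => by
    intro h g1 g2
    simp only [zBandOK, Bool.and_eq_true, decide_eq_true_eq] at hk
    obtain ⟨⟨a, b⟩, d⟩ := hk
    have b' : mv c.h0 ≤ mv ha := by
      have : (c.h0 : ℝ) ≤ ha := by exact_mod_cast b
      unfold mv; linarith
    have d' : mv hb ≤ mv c.h1 := by
      have : (hb : ℝ) ≤ c.h1 := by exact_mod_cast d
      unfold mv; linarith
    exact ⟨c, a, b'.trans g1, g2.trans d'⟩
  | c :: d :: rest, ha, hb, hk => by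
    intro h g1 g2
    simp only [zBandOK, Bool.and_eq_true, decide_eq_true_eq] at hk
    obtain ⟨⟨a, b⟩, hr⟩ := hk
    rcases le_or_gt h (mv c.h1) with hc | hc
    · refine ⟨c, a, le_trans ?_ g1, hc⟩
      have : (c.h0 : ℝ) ≤ ha := by exact_mod_cast b
      unfold mv; linarith
    · exact band_sound (d :: rest) c.h1 hb hr h hc.le g2

end Vale.Agent.P232.SlabHigh
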