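import Vale.Agent.P232.Calibration
import Vale.Agent.P232.SlabHigh.Extent
import Vale.Agent.P232.SlabHigh.ThinCheck

/-! # P232: the calibration of the unspanned axis by a thin trace -/

namespace Vale.Agent.P232.SlabHigh

open MeasureTheory Set Filter Topology

/-- The polynomial lower bound for `phiK`. -/
noncomputable def phiLow (k : ℝ) : ℝ := 1 - k ^ 2 / 6 - k ^ 4 / 10

lemma ofReal_setIntegral_le {s : Set ℝ} {f : ℝ → ℝ} (hf : IntegrableOn f s) :
    ENNReal.ofReal (∫ x in s, f x) ≤ ∫⁻ x in s, ENNReal.ofReal (f x) := by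
  have hp : IntegrableOn (fun x => max (f x) 0) s := hf.pos_part
  refine (ENNReal.ofReal_le_ofReal (integral_mono hf hp fun x => le_max_left _ _)).trans ?_
  rw [ofReal_integral_eq_lintegral_ofReal hp (ae_of_all _ fun x => le_max_right _ _)]
  refine le_of_eq (lintegral_congr fun x => ?_)
  rcases le_total (f x) 0 with h | h
  · rw [max_eq_right h, ENNReal.ofReal_zero, ENNReal.ofReal_of_nonpos h]
  · rw [max_eq_left h]

/-- A final segment of the support of an antitone function has at most the average. -/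
lemma setIntegral_tail_nonpos {ω : ℝ → ℝ} {W : ℝ} {A S : Set ℝ} (hA : A ⊆ Ioo 0 1)
    (hanti : AntitoneOn ω (Ioo 0 1)) (hSm : MeasurableSet S) (hAm : MeasurableSet A) (hSA : S ⊆ A)
    (hup : ∀ t ∈ S, ∀ u ∈ A, t ≤ u → u ∈ S) (hint : IntegrableOn (fun t => ω t - W) A)
    (htot : ∫ t in A, (ω t - W) ≤ 0) : ∫ t in S, (ω t - W) ≤ 0 := by
  by_cases hall : ∀ t ∈ S, ω t ≤ W
  · exact setIntegral_nonpos hSm fun t ht => sub_nonpos.2 (hall t ht)
  push Not at hall
  obtain ⟨t, ht, hW⟩ := hall
  have h1 : 0 ≤ ∫ u in A \ S, (ω u - W) := by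
    refine setIntegral_nonneg (hAm.diff hSm) fun u hu => ?_
    have hut : u ≤ t := le_of_lt (lt_of_not_ge fun h => hu.2 (hup t ht u hu.1 h))
    linarith [hanti (hA hu.1) (hA (hSA ht)) hut]
  have h2 := integral_inter_add_sdiff (s := A) hSm hint
  rw [inter_eq_right.2 hSA] at h2
  linarith

open scoped Classical in
/-- The calibration: a thin trace costs at most its average width. -/
lemma thin_calib {D : Set V3} {h : ℝ} {c : Fin 3 → ℝ} (hD : IsDown D) (hst : Stationary D h c)
    {i j k : Fin 3} (hij : i ≠ j) (hik : i ≠ k) (hjk : j ≠ k) (hi : endA1 D i = 0)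
    {W κ sl : ℝ} (hκ : 0 ≤ κ) (hsl0 : 0 ≤ sl) (hsl : sl ≤ endA0 D i) {β : ℝ → ℝ}
    (hβm : Measurable β) (hβ : ∀ s, 0 ≤ β s ∧ β s ≤ 1)
    (hlev : ∀ s, 0 < s → s ≤ sl → ZLevel W κ h s (β s))
    (hext : faceExt D i k j ≤ faceExt D i j k) (hW : endA1 D j ≤ W * faceExt D i j k) :
    h * dvol D + ∫ s in (0 : ℝ)..sl, β s ≤ area D := by
  have hci : c i = 0 := hst.unspanned i hi
  set a := sliceA D i with ha
  set ω := faceW D i j k with hω
  set ω' := faceW D i k j with hω'
  obtain ⟨hωanti, hωm, hωb, -, -⟩ := faceBasics D hD i j k hij hik hjk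
  obtain ⟨hω'anti, hω'm, hω'b, -, -⟩ := faceBasics D hD i k j hik hij hjk.symm
  have haanti := sliceA_antitone hD i
  have ham : Measurable a := measurable_sliceA hD.1 i
  set N := {t | t ∈ Ioo (0 : ℝ) 1 ∧ ¬ContinuousWithinAt a (Ioo 0 1) t} with hN
  have hNc : N.Countable := haanti.countable_not_continuousWithinAt
  set G := Ioo (0 : ℝ) 1 \ N with hG
  have hGm : MeasurableSet G := measurableSet_Ioo.diff hNc.measurableSet
  set B : ℝ → ℝ := fun t =>
    if t ∈ G then (if a t ≤ sl then (if 0 < a t then β (a t) else 1) else 0) else 1 with hB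
  set w : ℝ → ℝ := fun t =>
    if t ∈ G ∧ 0 < a t ∧ a t ≤ sl then √(1 - β (a t) ^ 2) else 0 with hw
  set Z : Set ℝ := G ∩ {t | sl < a t} with hZ
  have hpos : MeasurableSet {t | 0 < a t} := measurableSet_lt measurable_const ham
  have hle : MeasurableSet {t | a t ≤ sl} := measurableSet_le ham measurable_const
  have hBm : Measurable B :=
    Measurable.ite hGm (Measurable.ite hle (Measurable.ite hpos (hβm.comp ham) measurable_const)
      measurable_const) measurable_const
  have hwm : Measurable w :=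
    Measurable.ite (hGm.inter (hpos.inter hle))
      (measurable_const.sub ((hβm.comp ham).pow_const 2)).sqrt measurable_const
  have hZm : MeasurableSet Z := hGm.inter (measurableSet_lt measurable_const ham)
  have hbd : ∀ t, 0 ≤ B t ∧ 0 ≤ w t ∧ B t ^ 2 + w t ^ 2 ≤ 1 := by
    intro t
    obtain ⟨b0, b1⟩ := hβ (a t)
    have hb2 : 0 ≤ 1 - β (a t) ^ 2 := sub_nonneg.2 (pow_le_one₀ b0 b1)
    by_cases g1 : t ∈ G
    · by_cases g2 : a t ≤ sl
      · by_cases g3 : 0 < a t
        · simp only [hB, hw, g1, g2, g3, if_true, and_self]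
          exact ⟨b0, Real.sqrt_nonneg _, by rw [Real.sq_sqrt hb2]; linarith⟩
        · simp [hB, hw, g1, g2, g3]
      · simp [hB, hw, g1, g2]
    · simp [hB, hw, g1]
  have hBZ : ∀ t ∈ Z, B t = 0 := fun t ht => by
    simp [hB, ht.1, not_le.2 (show sl < a t from ht.2)]
  set κf : ℝ → ℝ := fun t => if w t < κ then 0 else κ / w t with hκf
  have hκfm : Measurable κf :=
    Measurable.ite (measurableSet_lt hwm measurable_const) measurable_const
      (measurable_const.div hwm)
  have hκfb : ∀ t, 0 ≤ κf t ∧ κf t ≤ 1 := by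
    intro t
    simp only [hκf]
    split_ifs with g
    · exact ⟨le_rfl, zero_le_one⟩
    · rw [not_lt] at g
      exact ⟨div_nonneg hκ (hκ.trans g), div_le_one_of_le₀ g (hκ.trans g)⟩
  set L : ℝ → ℝ := fun t =>
    if 0 < ω t then (if 0 < ω' t then √(Real.pi * (1 - a t)) else
      max 1 (phiLow (κf t) + κf t * (a t - ω t)))
    else (if 0 < ω' t then 0 else √(Real.pi * a t)) with hL
  have hLm : Measurable L := by
    refine Measurable.ite (measurableSet_lt measurable_const hωm)
      (Measurable.ite (measurableSet_lt measurable_const hω'm)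
        (measurable_const.mul (measurable_const.sub ham)).sqrt ?_)
      (Measurable.ite (measurableSet_lt measurable_const hω'm) measurable_const
        (measurable_const.mul ham).sqrt)
    exact Measurable.max measurable_const
      ((((measurable_const.sub ((hκfm.pow_const 2).div_const 6)).sub
        ((hκfm.pow_const 4).div_const 10))).add (hκfm.mul (ham.sub hωm)))
  have hLB : LengthBound D i L := by
    refine sliceGen D hD i j k hij hik hjk L κf hLm hκfm hκfb
      fun t _ => ⟨?_, ?_, ?_, ?_⟩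
    · intro e1 e2
      have e1' : ω t = 0 := e1
      have e2' : ω' t = 0 := e2
      simp [hL, e1', e2', ha]
    · intro e1 e2
      have e1' : 0 < ω t := e1
      have e2' : 0 < ω' t := e2
      simp [hL, e1', e2', ha]
    · intro e1 e2
      have e1' : 0 < ω t := e1
      have e2' : ω' t = 0 := e2
      simp only [hL, e1', e2', lt_irrefl, if_true, if_false]
      refine max_le (le_max_left _ _) (le_trans ?_ (le_max_right _ _))
      have : phiLow (κf t) ≤ phiK (κf t) := phiK_ge (hκfb t).1 (hκfb t).2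
      linarith
    · intro e1 e2
      have e1' : ω t = 0 := e1
      have e2' : 0 < ω' t := e2
      simp [hL, e1', e2']
  have hcal := calib_le hst hLB hBm hwm hZm hbd hBZ
  set Aj := {t | t ∈ Ioo (0 : ℝ) 1 ∧ 0 < ω t} with hAj
  set Ak := {t | t ∈ Ioo (0 : ℝ) 1 ∧ 0 < ω' t} with hAk
  set S := {t | t ∈ Ioo (0 : ℝ) 1 ∧ 0 < ω t ∧ ω' t = 0 ∧ a t ≤ sl} with hS
  have hAjm : MeasurableSet Aj :=
    measurableSet_Ioo.inter (measurableSet_lt measurable_const hωm)
  have hSm : MeasurableSet S :=
    measurableSet_Ioo.inter ((measurableSet_lt measurable_const hωm).inter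
      ((hω'm (measurableSet_singleton 0)).inter hle))
  have hnull : volume (Ak \ Aj) = 0 := by
    by_cases hsub : Ak ⊆ Aj
    · rw [sdiff_eq_empty.2 hsub, measure_empty]
    obtain ⟨u, hu, hu'⟩ := not_subset.1 hsub
    have hjs : Aj ⊆ Ak := fun t ht => by
      refine ⟨ht.1, lt_of_lt_of_le hu.2 (hω'anti ht.1 hu.1 ?_)⟩
      by_contra hcon
      rw [not_le] at hcon
      exact hu' ⟨hu.1, ht.2.trans_le (hωanti hu.1 ht.1 hcon.le)⟩
    have hfin : volume Ak ≠ ⊤ :=
      ne_top_of_le_ne_top (by simp) (measure_mono (μ := volume) fun t (ht : t ∈ Ak) => ht.1)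
    rw [measure_sdiff hjs hAjm.nullMeasurableSet (ne_top_of_le_ne_top hfin (measure_mono hjs)),
      tsub_eq_zero_iff_le, ← ENNReal.toReal_le_toReal hfin
        (ne_top_of_le_ne_top hfin (measure_mono hjs))]
    exact hext
  set g : ℝ → ℝ := S.indicator fun t => ω t - W with hg
  have key : ∀ᵐ t ∂(volume.restrict (Ioo (0 : ℝ) 1 \ Z)),
      h * a t - κ * g t ≤ w t * L t := by
    rw [ae_restrict_iff' (measurableSet_Ioo.diff hZm)]
    filter_upwards [measure_eq_zero_iff_ae_notMem.1 (hNc.measure_zero volume),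
      measure_eq_zero_iff_ae_notMem.1 hnull] with t htN htA ht
    have hG' : t ∈ G := ⟨ht.1, htN⟩
    have has : a t ≤ sl := not_lt.1 fun hlt => ht.2 ⟨hG', hlt⟩
    by_cases hpos' : 0 < a t
    · obtain ⟨l1, l2, l3, l4, l5⟩ := hlev (a t) hpos' has
      have hwt : w t = √(1 - β (a t) ^ 2) := by simp [hw, hG', hpos', has]
      rw [← hwt] at l1 l2 l3 l4 l5
      by_cases e1 : 0 < ω t
      · by_cases e2 : 0 < ω' t
        · have hg0 : g t = 0 := indicator_of_notMem (show t ∉ S from fun hs => by linarith [hs.2.2.1]) _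
          simp only [hL, e1, e2, if_true, hg0, mul_zero, sub_zero]
          exact l4
        · have e2' : ω' t = 0 := le_antisymm (not_lt.1 e2) (hω'b t).1
          have hgt : g t = ω t - W := indicator_of_mem (show t ∈ S from ⟨ht.1, e1, e2', has⟩) _
          have hkey : w t * (phiLow (κ / w t) + κ / w t * (a t - ω t)) =
              gLow κ (w t) + κ * (a t - ω t) := by
            unfold phiLow gLow
            field_simp
          simp only [hL, e1, e2, if_true, if_false, hgt]
          have hkf : κf t = κ / w t := by simp [hκf, l2.not_gt]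
          refine le_trans ?_ (mul_le_mul_of_nonneg_left (le_max_right _ _) l1.le)
          rw [hkf, hkey]
          linarith
      · have e1' : ω t = 0 := le_antisymm (not_lt.1 e1) (hωb t).1
        have e2 : ¬ 0 < ω' t := fun e2 => htA ⟨⟨ht.1, e2⟩, fun hj => e1 hj.2⟩
        have hg0 : g t = 0 := indicator_of_notMem (show t ∉ S from fun hs => e1 hs.2.1) _
        simp only [hL, e1, e2, if_false, hg0, mul_zero, sub_zero]
        exact l3
    · have ha0 : a t = 0 := le_antisymm (not_lt.1 hpos') (sliceA_nonneg D i t)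
      have hwt : w t = 0 := by simp [hw, hpos']
      have hg0 : g t = 0 := indicator_of_notMem (show t ∉ S from fun hs => by
        linarith [hs.2.1, show ω t ≤ a t from faceW_le_sliceA hD hij hik hjk t]) _
      simp [hwt, ha0, hg0]
  have hai : IntegrableOn (fun t => h * a t) (Ioo (0 : ℝ) 1) :=
    (integrableOn_sliceA hD i).const_mul h
  have hωi : IntegrableOn (fun t => ω t - W) (Ioo (0 : ℝ) 1) := by
    refine Integrable.sub ?_ (integrableOn_const (by simp))
    exact IntegrableOn.of_bound (by simp) hωm.aestronglyMeasurable 1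
      (ae_of_all _ fun t => by rw [Real.norm_eq_abs, abs_of_nonneg (hωb t).1]; exact (hωb t).2)
  have hgi : IntegrableOn g (Ioo (0 : ℝ) 1) := hωi.indicator hSm
  have hfi : IntegrableOn (fun t => h * a t - κ * g t) (Ioo (0 : ℝ) 1 \ Z) :=
    IntegrableOn.mono_set (hai.sub (hgi.const_mul κ)) sdiff_subset
  have hX : ENNReal.ofReal (∫ t in Ioo (0 : ℝ) 1 \ Z, (h * a t - κ * g t)) ≤
      ∫⁻ t in Ioo (0 : ℝ) 1 \ Z, ENNReal.ofReal (w t * L t) :=
    (ofReal_setIntegral_le hfi).trans
      (lintegral_mono_ae (key.mono fun t ht => ENNReal.ofReal_le_ofReal ht))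
  have hY : ENNReal.ofReal (∫ t in Ioo (0 : ℝ) 1 ∩ Z, h * a t) ≤
      ∫⁻ t in Ioo (0 : ℝ) 1 ∩ Z, ENNReal.ofReal (h * sliceA D i t + c i) := by
    refine (ofReal_setIntegral_le (hai.mono_set inter_subset_left)).trans (le_of_eq ?_)
    simp [hci, ha]
  have hsheet : ENNReal.ofReal (∫ s in (0 : ℝ)..sl, β s) ≤
      ∫⁻ x, ENNReal.ofReal (B (x i)) ∂sheet D i := by
    have hβi : IntegrableOn β (Ioo (0 : ℝ) sl) :=
      IntegrableOn.of_bound measure_Ioo_lt_top hβm.aestronglyMeasurable 1
        (ae_of_all _ fun s => by rw [Real.norm_eq_abs, abs_of_nonneg (hβ s).1]; exact (hβ s).2)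
    rw [sheetLaw D hD i _ hBm.ennreal_ofReal, intervalIntegral.integral_of_le hsl0,
      integral_Ioc_eq_integral_Ioo,
      ofReal_integral_eq_lintegral_ofReal hβi (ae_of_all _ fun s => (hβ s).1)]
    refine le_trans (setLIntegral_mono' measurableSet_Ioo fun s hs => ENNReal.ofReal_le_ofReal ?_)
      (lintegral_mono_set (Ioo_subset_Ioo hi.le hsl))
    change β s ≤ B (Calib.inv D i s)
    have hs' : s ∈ Ioo (endA1 D i) (endA0 D i) := ⟨hi ▸ hs.1, hs.2.trans_le hsl⟩
    by_cases ht : Calib.inv D i s ∈ G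
    · have e := Calib.slice_inv hD i hs' (not_not.1 fun hc => ht.2 ⟨ht.1, hc⟩)
      simp only [hB, ha, if_pos ht, e, if_pos hs.2.le, if_pos hs.1]
      exact le_rfl
    · simp only [hB, if_neg ht]
      exact (hβ s).2
  have htail : ∫ t in S, (ω t - W) ≤ 0 := by
    refine setIntegral_tail_nonpos (A := Aj) (fun t ht => ht.1) hωanti hSm hAjm
      (fun t ht => ⟨ht.1, ht.2.1⟩) ?_ (hωi.mono_set fun t ht => ht.1) ?_
    · intro t ht u hu htu
      exact ⟨hu.1, hu.2, le_antisymm ((hω'anti ht.1 hu.1 htu).trans_eq ht.2.2.1) (hω'b u).1,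
        (haanti ht.1 hu.1 htu).trans ht.2.2.2⟩
    · have h1 : IntegrableOn ω Aj := by
        refine (IntegrableOn.of_bound (by simp) hωm.aestronglyMeasurable 1
          (ae_of_all _ fun t => ?_) : IntegrableOn ω (Ioo (0 : ℝ) 1)).mono_set
            (show Aj ⊆ Ioo (0 : ℝ) 1 from fun t ht => ht.1)
        rw [Real.norm_eq_abs, abs_of_nonneg (hωb t).1]; exact (hωb t).2
      have hfin : volume Aj ≠ ⊤ :=
        ne_top_of_le_ne_top (by simp) (measure_mono (μ := volume) fun t (ht : t ∈ Aj) => ht.1)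
      have hsum : ∫ t in Aj, ω t = endA1 D j := by
        rw [← integral_faceW hD hij hik hjk]
        refine (setIntegral_eq_of_subset_of_forall_sdiff_eq_zero measurableSet_Ioo
          (show Aj ⊆ Ioo (0 : ℝ) 1 from fun t ht => ht.1) fun t ht => ?_).symm
        exact le_antisymm (not_lt.1 fun hp => ht.2 ⟨ht.1, hp⟩) (hωb t).1
      rw [integral_sub h1 (integrableOn_const (C := W) hfin), setIntegral_const, hsum, smul_eq_mul]
      have : volume.real Aj = faceExt D i j k := rfl
      rw [this]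
      linarith
  have hgS : ∫ t in Ioo (0 : ℝ) 1 \ Z, g t = ∫ t in S, (ω t - W) := by
    rw [hg, setIntegral_indicator hSm]
    congr 2
    refine inter_eq_right.2 fun t ht => ⟨ht.1, fun hz => ?_⟩
    exact (lt_irrefl _) ((show sl < a t from hz.2).trans_le ht.2.2.2)
  have hsplit : (∫ t in Ioo (0 : ℝ) 1 \ Z, h * a t) + (∫ t in Ioo (0 : ℝ) 1 ∩ Z, h * a t) =
      h * dvol D := by
    rw [add_comm, integral_inter_add_sdiff hZm hai, integral_const_mul, integral_sliceA hD i]
  have hXval : (∫ t in Ioo (0 : ℝ) 1 \ Z, (h * a t - κ * g t)) =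
      (∫ t in Ioo (0 : ℝ) 1 \ Z, h * a t) - κ * ∫ t in S, (ω t - W) := by
    rw [integral_sub (hai.mono_set sdiff_subset) (IntegrableOn.mono_set (hgi.const_mul κ) sdiff_subset),
      integral_const_mul κ, hgS]
  have hfinal := ((add_le_add (add_le_add hsheet hX) hY).trans hcal)
  have := (ENNReal.ofReal_add_le.trans
    (add_le_add ENNReal.ofReal_add_le le_rfl)).trans hfinal
  rw [ENNReal.ofReal_le_ofReal_iff (area_nonneg D)] at this
  rw [hXval] at this
  linarith [mul_nonpos_of_nonneg_of_nonpos hκ htail]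

end Vale.Agent.P232.SlabHigh
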