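import Vale.Agent.P232.SlabHigh.Extent
import Vale.Agent.P232.Slices
import Vale.Agent.P232.KinkAux

/-! # P232: length of the slice through a full trace -/

namespace Vale.Agent.P232.SlabHigh

open MeasureTheory Set Filter Topology
open scoped ENNReal

variable {D : Set V3} {i j k : Fin 3}

lemma supp_finite (D : Set V3) (i j k : Fin 3) :
    volume {t : ℝ | t ∈ Ioo (0 : ℝ) 1 ∧ 0 < faceW D i j k t} ≠ ⊤ :=
  ne_top_of_le_ne_top (by simp : volume (Ioo (0 : ℝ) 1) ≠ ⊤) (measure_mono fun _ h => h.1)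

lemma faceExt_nonneg (D : Set V3) (i j k : Fin 3) : 0 ≤ faceExt D i j k := measureReal_nonneg

lemma exists_row_of_lt (hD : IsDown D) (hij : i ≠ j) (hik : i ≠ k) (hjk : j ≠ k) {r : ℝ}
    (hr0 : 0 < r) (hr : r < faceExt D i j k) : 0 < faceW D i j k r ∧ r < 1 := by
  by_contra hcon
  have hsub : {t : ℝ | t ∈ Ioo (0 : ℝ) 1 ∧ 0 < faceW D i j k t} ⊆ Ioo 0 r := by
    intro t ⟨ht, hpos⟩
    refine ⟨ht.1, lt_of_not_ge fun hrt => hcon ?_⟩
    have hr1 : r < 1 := hrt.trans_lt ht.2
    exact ⟨hpos.trans_le (faceW_antitone hD hij hik hjk ⟨hr0, hr1⟩ ht hrt), hr1⟩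
  have := measureReal_mono (μ := volume) hsub (measure_Ioo_lt_top).ne
  rw [Real.volume_real_Ioo_of_le hr0.le, sub_zero] at this
  exact absurd hr (not_lt.2 this)

lemma faceExt_pos (hD : IsDown D) (hij : i ≠ j) (hik : i ≠ k) (hjk : j ≠ k)
    (hp : 0 < endA1 D j) : 0 < faceExt D i j k := by
  obtain ⟨t, ht, ht1⟩ := ((faceW_pos_near faceBasics hD hij hik hjk hp).and
    (Ioo_mem_nhdsGT zero_lt_one)).exists
  refine lt_of_lt_of_le (show 0 < t from ht1.1) ?_
  have := measureReal_mono (μ := volume) (s₁ := Ioo 0 t)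
    (s₂ := {t : ℝ | t ∈ Ioo (0 : ℝ) 1 ∧ 0 < faceW D i j k t})
    (fun u hu => ⟨⟨hu.1, hu.2.trans ht1.2⟩,
      ht.trans_le (faceW_antitone hD hij hik hjk ⟨hu.1, hu.2.trans ht1.2⟩ ht1 hu.2.le)⟩)
    (supp_finite D i j k)
  rwa [Real.volume_real_Ioo_of_le ht1.1.le, sub_zero] at this

/-- Every width of the trace along `i` is at most the extent along `i`. -/
lemma width_le_faceExt (hD : IsDown D) (hij : i ≠ j) (hik : i ≠ k) (hjk : j ≠ k) (s : ℝ) :
    faceW D k j i s ≤ faceExt D i j k := by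
  refine measureReal_mono (μ := volume) ?_ (supp_finite D i j k)
  intro r ⟨hr, hr1⟩
  have hr1' : fext D k j i s r = 1 := hr1
  have hs : s ∈ Ioo (0 : ℝ) 1 :=
    (ioo_of_fext_pos hD hjk.symm hik.symm hij.symm (by rw [hr1']; exact one_pos)).1
  refine ⟨hr, hs.1.trans_le ?_⟩
  have hsub : Ioo 0 s ⊆ {u : ℝ | u ∈ Ioo (0 : ℝ) 1 ∧ fext D i j k r u = 1} := by
    intro u hu
    refine ⟨⟨hu.1, hu.2.trans hs.2⟩, le_antisymm (fext_le_one hD i j k r u) ?_⟩
    refine le_of_forall_lt_imp_le_of_dense fun y hy => ?_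
    rcases le_or_gt y 0 with hy0 | hy0
    · exact hy0.trans (fext_nonneg D i j k r u)
    have hm := mem_of_lt_fext hD hy0 (hy.trans_eq hr1'.symm)
    have hm' : mk3 i j k r y s ∈ D := by
      have e : mk3 k j i s y r = mk3 i j k r y s := by
        funext l
        rcases axis_cases hij hik hjk l with rfl | rfl | rfl
        · rw [mk3_thd hij.symm, mk3_fst hij hik]
        · rw [mk3_snd, mk3_snd]
        · rw [mk3_fst hjk.symm hik.symm, mk3_thd hjk]
      rwa [e] at hm
    exact le_fext_of_mem hD (mk3_down hD hij hik hjk hm' hr ⟨hy0, hy⟩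
      ⟨hu.1, hu.2.trans hs.2⟩ le_rfl le_rfl hu.2.le)
  have h := measureReal_mono (μ := volume) hsub (fullRow_finite D i j k r)
  rwa [Real.volume_real_Ioo_of_le hs.1.le, sub_zero, ← faceW_eq] at h

/-- A row that meets the trace has a positive extent. -/
lemma row_pos (hD : IsDown D) (hij : i ≠ j) (hik : i ≠ k) (hjk : j ≠ k) {t r : ℝ}
    (ht : t ∈ Ioo (0 : ℝ) 1) (hr : r ∈ Ioo (0 : ℝ) 1) (hw : 0 < faceW D i j k r) :
    0 < fext D j k i t r := by
  obtain ⟨u, ⟨hu, hu1⟩⟩ : {u : ℝ | u ∈ Ioo (0 : ℝ) 1 ∧ fext D i j k r u = 1}.Nonempty := by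
    by_contra hne
    rw [not_nonempty_iff_eq_empty] at hne
    rw [faceW_eq, hne] at hw
    simp at hw
  have hm := mem_of_lt_fext hD ht.1 (ht.2.trans_eq hu1.symm)
  have e : mk3 i j k r t u = mk3 j k i t u r := by
    funext l
    rcases axis_cases hij hik hjk l with rfl | rfl | rfl
    · rw [mk3_fst hij hik, mk3_thd hik.symm]
    · rw [mk3_snd, mk3_fst hjk hij.symm]
    · rw [mk3_thd hjk, mk3_snd]
  rw [e] at hm
  exact hu.1.trans_le (le_fext_of_mem hD hm)

/-- A column reaches at least as far as the trace. -/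
lemma col_ge (hD : IsDown D) (hij : i ≠ j) (hik : i ≠ k) (hjk : j ≠ k) {t : ℝ}
    (ht : t ∈ Ioo (0 : ℝ) 1) (s : ℝ) : faceW D k j i s ≤ fext D j i k t s := by
  refine measureReal_mono (μ := volume) ?_
    (ne_top_of_le_ne_top ENNReal.one_ne_top (volume_line_le hD i _))
  intro r ⟨hr, hr1⟩
  have hm := mem_of_lt_fext (s := t) hD ht.1 (ht.2.trans_eq (show fext D k j i s r = 1 from hr1).symm)
  have e : mk3 k j i s t r = mk3 j i k t r s := by
    funext l
    rcases axis_cases hij hik hjk l with rfl | rfl | rfl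
    · rw [mk3_thd hij.symm, mk3_snd]
    · rw [mk3_snd, mk3_fst hij.symm hjk]
    · rw [mk3_fst hjk.symm hik.symm, mk3_thd hik]
  rw [e, ← insertNth_faceMap] at hm
  exact hm

/-- Slices without full lines are at least as long as the outline of the trace. -/
theorem traceBound (hD : IsDown D) (hij : i ≠ j) (hik : i ≠ k) (hjk : j ≠ k)
    (hi : endA1 D i = 0) (he : 0 < faceExt D i j k) :
    LengthBound D j fun t => if faceW D j k i t = 0 then
      Real.pi / 4 * faceExt D i j k + endA1 D j / faceExt D i j k else 0 := by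
  set e := faceExt D i j k with hedef
  refine ⟨Measurable.ite (measurable_faceW hD.1 j k i (measurableSet_singleton 0))
    measurable_const measurable_const, fun g hg => ?_⟩
  refine slice_core hD hjk hij.symm hik.symm (u := fun x => √(1 - clamp01 (x i / e) ^ 2))
    (v := fun x => clamp01 (x i / e)) ?_ ?_ (fun x => Real.sqrt_nonneg _)
    (fun x => (clamp01_mem _).1) ?_ ?_ hg
  · exact ((measurable_clamp01.comp (Measurable.div_const (measurable_pi_apply (X := fun _ : Fin 3 => ℝ) i) e)).pow_const 2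
      |>.const_sub 1).sqrt
  · exact measurable_clamp01.comp (Measurable.div_const (measurable_pi_apply (X := fun _ : Fin 3 => ℝ) i) e)
  · intro x
    rw [Real.sq_sqrt (by nlinarith [clamp01_mem (x i / e)])]
    linarith
  intro t ht
  by_cases h0 : faceW D j k i t = 0
  swap
  · simp [h0]
  rw [if_pos h0, ENNReal.ofReal_add (by positivity)
    (div_nonneg (show 0 ≤ endA1 D j from measureReal_nonneg) he.le)]
  refine add_le_add ?_ ?_
  · simp only [mk3_thd hik.symm]
    rw [show Real.pi / 4 * e = e * Real.pi / 4 by ring, ← arc_left he]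
    have hnull : volume {r : ℝ | r ∈ Ioo (0 : ℝ) 1 ∧ fext D j k i t r = 1} = 0 := by
      rw [← ofReal_faceW, h0, ENNReal.ofReal_zero]
    have hae : ∀ᵐ r : ℝ, ¬ (r ∈ Ioo (0 : ℝ) 1 ∧ fext D j k i t r = 1) :=
      measure_eq_zero_iff_ae_notMem.1 hnull
    rw [← lintegral_indicator measurableSet_Ioo, ← lintegral_indicator
      (show MeasurableSet {r | fext D j k i t r ∈ Ioo (0 : ℝ) 1} from
        (measurable_fext_right hD.1 j k i t) measurableSet_Ioo)]
    refine lintegral_mono_ae ?_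
    filter_upwards [hae] with r hr
    by_cases hri : r ∈ Ioo 0 e
    · obtain ⟨hw, hr1⟩ := exists_row_of_lt hD hij hik hjk hri.1 hri.2
      have hpos := row_pos hD hij hik hjk ht ⟨hri.1, hr1⟩ hw
      have hlt : fext D j k i t r < 1 :=
        lt_of_le_of_ne (fext_le_one hD j k i t r) fun h => hr ⟨⟨hri.1, hr1⟩, h⟩
      rw [indicator_of_mem hri, indicator_of_mem
        (show r ∈ {r | fext D j k i t r ∈ Ioo (0 : ℝ) 1} from ⟨hpos, hlt⟩),
        clamp01_eq (div_nonneg hri.1.le he.le) ((div_le_one he).2 hri.2.le)]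
    · rw [indicator_of_notMem hri]
      exact zero_le
  · simp only [mk3_thd hik.symm]
    have hint : ∫⁻ s in Ioo (0 : ℝ) 1, ENNReal.ofReal (faceW D k j i s / e) =
        ENNReal.ofReal (endA1 D j / e) := by
      simp only [div_eq_mul_inv, ENNReal.ofReal_mul' (inv_nonneg.2 he.le)]
      rw [lintegral_mul_const _ (measurable_faceW hD.1 k j i).ennreal_ofReal,
        lintegral_faceW hD hjk.symm hik.symm hij.symm]
      congr 1
      exact (ofReal_measureReal (fullSet_finite D j)).symm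
    rw [← hint]
    have hnull : volume {s : ℝ | s ∈ Ioo (0 : ℝ) 1 ∧ fext D j i k t s = 1} = 0 := by
      rw [← ofReal_faceW, faceW_eq_zero_of_endA1 hD hij.symm hjk hik hi ht, ENNReal.ofReal_zero]
    have hae : ∀ᵐ s : ℝ, ¬ (s ∈ Ioo (0 : ℝ) 1 ∧ fext D j i k t s = 1) :=
      measure_eq_zero_iff_ae_notMem.1 hnull
    rw [← lintegral_indicator measurableSet_Ioo, ← lintegral_indicator
      (show MeasurableSet {r | fext D j i k t r ∈ Ioo (0 : ℝ) 1} from
        (measurable_fext_right hD.1 j i k t) measurableSet_Ioo)]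
    refine lintegral_mono_ae ?_
    filter_upwards [hae] with s hs
    by_cases hsi : s ∈ Ioo (0 : ℝ) 1
    · rw [indicator_of_mem hsi]
      rcases (faceW_nonneg D k j i s).eq_or_lt with hz | hpos
      · rw [← hz, zero_div, ENNReal.ofReal_zero]
        exact zero_le
      have hge := col_ge hD hij hik hjk ht s
      have hlt : fext D j i k t s < 1 :=
        lt_of_le_of_ne (fext_le_one hD j i k t s) fun h => hs ⟨hsi, h⟩
      rw [indicator_of_mem
        (show s ∈ {r | fext D j i k t r ∈ Ioo (0 : ℝ) 1} from ⟨hpos.trans_le hge, hlt⟩)]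
      refine ENNReal.ofReal_le_ofReal ?_
      refine le_max_of_le_right (le_min ?_ (div_le_div_of_nonneg_right hge he.le))
      exact (div_le_one he).2 (width_le_faceExt hD hij hik hjk s)
    · rw [indicator_of_notMem hsi]
      exact zero_le

end Vale.Agent.P232.SlabHigh
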